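import Vale.Agent.P132.Random.Main

/-!
# P096 III Bic: the dissipation bound against an arbitrary test vector

As P132 Random/Main `stmtDissip`, with the scalar test matrix replaced by a vector.
-/

namespace Vale.Agent.P096.III.Bic

open scoped InnerProductSpace Topology
open Finset Filter
open Vale.Agent.P132 Vale.Agent.P132.Random

universe u

set_option linter.unusedSectionVars false

variable {H : Type u} [NormedAddCommGroup H] [InnerProductSpace ℂ H] [CompleteSpace H] {d : ℕ}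
  {M : VonNeumannAlgebra H} {Ω : H}

/-- The bound for a fixed step `1 / N`. -/
lemma bound_step (D : ModData M Ω) (hΩ : ‖Ω‖ = 1) {c : Fin d → ℝ} (hc : ∀ j, 0 < c j)
    (h1 : ∑ j, c j = 1) {A : Fin d → H →L[ℂ] H} {L : Mat H d} {δ η C C1 C2 : ℝ}
    {zv : L2 H d} (hδ : 0 < δ) (hC : 0 ≤ C)
    (hA : ∀ j, A j ∈ M ∧ IsSelfAdjoint (A j) ∧ ‖A j‖ ≤ 1)
    (hL0 : ∀ j, L j j = 0) (hη : 0 ≤ η)
    (htr : ∀ W : Fin d → Fin d → H →L[ℂ] H, IsUnitaryMat M W → cent2 D c W ≤ δ →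
      comm2 Ω c A W ≤ η)
    (hP : ∀ B : Fin d → H →L[ℂ] H, (∀ j, B j ∈ M ∧ IsSelfAdjoint (B j)) →
      ‖⟪zv, act (dg B * L - L * dg B) (xi Ω c)⟫_ℂ‖ ≤ C * √(∑ j, c j * ‖B j Ω‖ ^ 2))
    {V : Mat H d} (hVM : InM M V) (hV : star V * V = 1) (hV' : V * star V = 1)
    {N : ℕ} (hN : 0 < N)
    (hq : ‖pd (tw D V (xi Ω c)) - xi Ω c‖ ≤
      (N : ℝ)⁻¹ ^ 2 / 2 * drift D c (fun j k => L j k) + C1 * (N : ℝ)⁻¹ ^ 3)
    (hB : ∀ B : L2 H d →L[ℂ] L2 H d, ‖B‖ ≤ 1 →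
      ‖star (act V) * B * act V - B -
        (((N : ℝ)⁻¹ : ℂ) * Complex.I) • (B * act L - act L * B)‖ ≤ C2 * (N : ℝ)⁻¹ ^ 2) :
    let D0 := drift D c (fun j k => L j k)
    let ε := (N : ℝ)⁻¹
    let e1 := √(η + 4 / δ * (D0 + 2 * C1 * ε))
    ‖⟪zv, act (dg A * L - L * dg A) (xi Ω c)⟫_ℂ‖ ≤
      ‖zv‖ * (√(2 * e1 + 2 * D0 + 4 * C1 * ε) + C2 * ε) + C * e1 := by
  intro D0 ε e1
  set ξ := xi Ω c with hξ
  have hn : ‖ξ‖ = 1 := norm_xi c hc h1 hΩ
  have hN' : (0 : ℝ) < N := Nat.cast_pos.2 hN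
  set q := ε ^ 2 / 2 * D0 + C1 * ε ^ 3 with hqd
  have q0 : 0 ≤ q := (norm_nonneg _).trans hq
  set K := N * N with hK
  have hKq : (K : ℝ) * q = D0 / 2 + C1 * ε := by
    rw [hqd, hK, Nat.cast_mul]
    simp only [ε]
    field_simp
  set B := bseq V A with hBd
  set β := fun i => act (dg (B i)) ξ with hβ
  set a := act (dg A) with ha
  -- invariants
  have inv : ∀ i, (∀ j, B i j ∈ M ∧ IsSelfAdjoint (B i j)) ∧ ‖act (dg (B i))‖ ≤ 1 :=
    fun i => bseq_spec hA hVM hV i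
  have inM' : ∀ i, InM M (dg (B i)) := fun i => inM_dg fun j => ((inv i).1 j).1
  -- the conjugates stay near A
  have near : ∀ i ≤ K, ‖β i - a ξ‖ ≤ e1 := by
    intro i hi
    have : (i : ℝ) * q ≤ K * q := by gcongr
    exact near_bound D hΩ hc h1 hA hδ hη htr hVM hV hV' hq i (by linarith)
  -- one step loses the off diagonal part
  set Y := fun i => act (star V * dg (B i) * V) ξ with hY
  have hdiag : ∀ i, pd (Y i) = β (i + 1) := fun i => pd_act_xi _ _ _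
  have step : ∀ i, ‖β (i + 1)‖ ^ 2 + ‖Y i - pd (Y i)‖ ^ 2 ≤ ‖β i‖ ^ 2 + 4 * q := by
    intro i
    rw [← hdiag]
    exact step_bound D hn hVM hV hV' hq (inM' i) (inv i).2
  set X := fun i => act (dg (B i) * L - L * dg (B i)) ξ with hX
  set o := fun i => ‖Y i - pd (Y i)‖ with ho
  have hoff : ∀ i, ε * ‖X i‖ ≤ o i + C2 * ε ^ 2 := by
    intro i
    exact off_bound Ω hn hL0 (by positivity) (by simpa [ε] using hB _ (inv i).2)
  -- total loss
  set G := 2 * e1 + 2 * D0 + 4 * C1 * ε with hG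
  have htot : ∑ i ∈ range K, o i ^ 2 ≤ G := by
    have hsum : ∀ m, ‖β m‖ ^ 2 + ∑ i ∈ range m, o i ^ 2 ≤ ‖β 0‖ ^ 2 + m * (4 * q) := by
      intro m
      induction m with
      | zero => simp
      | succ m ih =>
        rw [Finset.sum_range_succ]
        push_cast
        linarith [step m]
    have hK1 := hsum K
    have n0 : ‖β 0‖ ≤ 1 := ((act (dg (B 0))).le_of_opNorm_le (inv 0).2 ξ).trans (by rw [one_mul, hn])
    have nK : ‖β K‖ ≤ 1 := ((act (dg (B K))).le_of_opNorm_le (inv K).2 ξ).trans (by rw [one_mul, hn])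
    have hd : ‖β 0‖ - ‖β K‖ ≤ e1 := by
      refine (norm_sub_norm_le _ _).trans ?_
      rw [norm_sub_rev]
      exact near K le_rfl
    have : ‖β 0‖ ^ 2 - ‖β K‖ ^ 2 ≤ 2 * e1 := by
      nlinarith [norm_nonneg (β 0), norm_nonneg (β K), Real.sqrt_nonneg (η + 4 / δ * (D0 + 2 * C1 * ε))]
    nlinarith
  -- the pairing
  set pr : (Fin d → H →L[ℂ] H) → ℂ := fun Bf => ⟪zv, act (dg Bf * L - L * dg Bf) ξ⟫_ℂ with hpr
  have hpe : ∀ Bf : Fin d → H →L[ℂ] H, pr Bf = ⟪zv, act (dg Bf * L - L * dg Bf) ξ⟫_ℂ :=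
    fun _ => rfl
  have main : ∀ i < K, ‖pr A‖ ≤ C * e1 + ‖zv‖ * ‖X i‖ := by
    intro i hi
    have hdiff := hP (fun j => A j - B i j) fun j =>
      ⟨sub_mem (hA j).1 ((inv i).1 j).1, (hA j).2.1.sub ((inv i).1 j).2⟩
    have hlin : pr A = pr (fun j => A j - B i j) + pr (B i) := by
      simp only [hpr, ← inner_add_right, ← add_apply, ← act_add]
      congr 3
      refine CStarMatrix.ext fun j k => ?_
      simp [dg_mul, mul_dg, sub_mul, mul_sub]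
      abel
    have hnear : √(∑ j, c j * ‖(A j - B i j) Ω‖ ^ 2) ≤ e1 := by
      refine le_trans (le_of_eq ?_) (near i hi.le)
      rw [← Real.sqrt_sq (norm_nonneg (β i - a ξ)), norm_sub_rev, PiLp.norm_sq_eq_of_L2,
        Fintype.sum_prod_type]
      congr 1
      refine Finset.sum_congr rfl fun j _ => ?_
      rw [Finset.sum_eq_single j]
      · simp [hβ, ha, act_dg_apply, hξ, xi_apply, norm_smul, mul_pow, ← smul_sub,
          abs_of_nonneg (Real.sqrt_nonneg _), Real.sq_sqrt (hc j).le, -act_apply]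
      · intro k _ hk
        simp [hβ, ha, act_dg_apply, hξ, xi_apply, Ne.symm hk, -act_apply]
      · simp
    rw [hlin]
    refine (norm_add_le _ _).trans (add_le_add (hdiff.trans ?_) ?_)
    · exact mul_le_mul_of_nonneg_left hnear hC
    · rw [hpe]; exact norm_inner_le_norm _ _
  have hS : ∑ i ∈ range K, o i ≤ N * √G := by
    have h := sq_sum_le_card_mul_sum_sq (s := range K) (f := o)
    rw [Finset.card_range] at h
    have hG0 : 0 ≤ G := le_trans (Finset.sum_nonneg fun i _ => sq_nonneg _) htot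
    refine le_of_sq_le_sq ?_ (by positivity)
    rw [mul_pow, Real.sq_sqrt hG0]
    refine h.trans ?_
    rw [hK, Nat.cast_mul, sq]
    gcongr
  have hsumX : ε * ∑ i ∈ range K, ‖X i‖ ≤ N * √G + K * (C2 * ε ^ 2) := by
    rw [Finset.mul_sum]
    refine (Finset.sum_le_sum fun i _ => hoff i).trans ?_
    rw [Finset.sum_add_distrib, Finset.sum_const, Finset.card_range, nsmul_eq_mul]
    linarith
  have hall : (K : ℝ) * ‖pr A‖ ≤
      K * (C * e1) + ‖zv‖ * ∑ i ∈ range K, ‖X i‖ := by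
    calc (K : ℝ) * ‖pr A‖
        = ∑ _i ∈ range K, ‖pr A‖ := by simp
      _ ≤ ∑ i ∈ range K, (C * e1 + ‖zv‖ * ‖X i‖) :=
          Finset.sum_le_sum fun i hi => main i (Finset.mem_range.1 hi)
      _ = _ := by simp [Finset.sum_add_distrib, Finset.mul_sum]
  have hKpos : (0 : ℝ) < K := by rw [hK]; positivity
  have hsum2 : ∑ i ∈ range K, ‖X i‖ ≤ K * (√G + C2 * ε) := by
    have h' := mul_le_mul_of_nonneg_left hsumX hN'.le
    have e1' : (N : ℝ) * ε = 1 := mul_inv_cancel₀ hN'.ne'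
    rw [← mul_assoc, e1', one_mul] at h'
    refine h'.trans (le_of_eq ?_)
    rw [hK, Nat.cast_mul]
    linear_combination (N : ℝ) * N * C2 * ε * e1'
  refine le_of_mul_le_mul_left ?_ hKpos
  calc (K : ℝ) * ‖pr A‖
      ≤ K * (C * e1) + ‖zv‖ * (K * (√G + C2 * ε)) :=
        hall.trans (by gcongr)
    _ = _ := by ring

theorem dissip (D : ModData M Ω) (hΩ : IsCS M Ω) {c : Fin d → ℝ} {A : Fin d → H →L[ℂ] H}
    {L : Fin d → Fin d → H →L[ℂ] H} {zv : L2 H d} {δ η C : ℝ} (hc : ∀ j, 0 < c j)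
    (h1 : ∑ j, c j = 1) (hδ : 0 < δ) (hη : 0 ≤ η) (hC : 0 ≤ C)
    (hA : ∀ j, A j ∈ M ∧ IsSelfAdjoint (A j) ∧ ‖A j‖ ≤ 1) (hLM : ∀ j k, L j k ∈ M)
    (hLs : ∀ j k, star (L j k) = L k j) (hL0 : ∀ j, L j j = 0)
    (htr : ∀ W : Fin d → Fin d → H →L[ℂ] H, IsUnitaryMat M W → cent2 D c W ≤ δ →
      comm2 Ω c A W ≤ η)
    (hP : ∀ B : Fin d → H →L[ℂ] H, (∀ j, B j ∈ M ∧ IsSelfAdjoint (B j)) →
      ‖⟪zv, act (dg B * CStarMatrix.ofMatrix L - CStarMatrix.ofMatrix L * dg B) (xi Ω c)⟫_ℂ‖ ≤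
        C * √(∑ j, c j * ‖B j Ω‖ ^ 2)) :
    let e := √η + 2 * √(2 * drift D c L / δ)
    ‖⟪zv, act (dg A * CStarMatrix.ofMatrix L - CStarMatrix.ofMatrix L * dg A) (xi Ω c)⟫_ℂ‖ ≤
      ‖zv‖ * √(2 * e + 4 * drift D c L) + C * e := by
  dsimp only
  set Lm : Mat H d := CStarMatrix.ofMatrix L with hLm
  have hs : star Lm = Lm := CStarMatrix.ext fun j k => hLs k j
  obtain ⟨C1, hC1, hq⟩ := exists_tw_bound D c hs (fun j k => hLM j k) fun j => hL0 j
  obtain ⟨C2, hC2, hB⟩ := exists_conjugate_bound Lm hs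
  set D0 := drift D c L with hD0
  set Zn := ‖zv‖
  set F : ℝ → ℝ := fun ε => Zn * (√(2 * √(η + 4 / δ * (D0 + 2 * C1 * ε)) + 2 * D0 + 4 * C1 * ε) +
    C2 * ε) + C * √(η + 4 / δ * (D0 + 2 * C1 * ε)) with hF
  have key : ∀ᶠ N : ℕ in atTop, ‖⟪zv, act (dg A * Lm - Lm * dg A) (xi Ω c)⟫_ℂ‖ ≤ F ((N : ℝ)⁻¹) := by
    filter_upwards [eventually_gt_atTop 0] with N hN
    have e0 : (0 : ℝ) ≤ (N : ℝ)⁻¹ := by positivity
    have e1 : (N : ℝ)⁻¹ ≤ 1 := inv_le_one_of_one_le₀ (by exact_mod_cast hN)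
    obtain ⟨V, hVM, hV, hV', hVb⟩ := exists_step Lm hs (fun j k => hLM j k) e0
    exact bound_step D hΩ.norm hc h1 hδ hC hA (L := Lm) (fun j => hL0 j) hη
      htr hP hVM hV hV' hN (hq _ V e0 e1 hV hVb)
      (fun B hB1 => by simpa using hB _ V B e0 e1 hV hB1 hVb)
  have hlim : Tendsto (fun N : ℕ => F ((N : ℝ)⁻¹)) atTop (𝓝 (F 0)) :=
    (Continuous.tendsto (by fun_prop) 0).comp (tendsto_inv_atTop_zero.comp tendsto_natCast_atTop_atTop)
  refine (ge_of_tendsto hlim key).trans ?_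
  have D00 : 0 ≤ D0 := Real.sqrt_nonneg _
  have he : √(η + 4 / δ * D0) ≤ √η + 2 * √(2 * D0 / δ) := by
    have hx : 0 ≤ 4 / δ * D0 := by positivity
    have hs : √(η + 4 / δ * D0) ≤ √η + √(4 / δ * D0) := by
      rw [Real.sqrt_le_left (by positivity)]
      nlinarith [Real.sq_sqrt hη, Real.sq_sqrt hx, Real.sqrt_nonneg η, Real.sqrt_nonneg (4 / δ * D0)]
    refine hs.trans ?_
    gcongr
    rw [show (2 : ℝ) * √(2 * D0 / δ) = √(4 * (2 * D0 / δ)) by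
      rw [Real.sqrt_mul (by norm_num), show (4 : ℝ) = 2 ^ 2 by norm_num, Real.sqrt_sq (by norm_num)]]
    refine Real.sqrt_le_sqrt ?_
    have : 0 ≤ D0 / δ := by positivity
    rw [mul_div_assoc, div_mul_eq_mul_div]
    rw [mul_div_assoc]
    linarith
  simp only [hF, mul_zero, add_zero]
  gcongr
  nlinarith

end Vale.Agent.P096.III.Bic
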