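import Vale.Agent.P096.III.Bic.Drift
import Vale.Agent.P096.III.Bic.Dissip
import Vale.Agent.P132.Modular.Exports

/-!
# P096 III Bic: an element with the transfer property is central

`a` in `M` has the transfer property if it almost commutes with every unitary matrix over `M` that
almost centralises `Ω ⊗ diag c`, for the geometric weights `c`, uniformly in the matrix size.
-/

namespace Vale.Agent.P096.III.Bic

open scoped InnerProductSpace Topology ComplexOrder ComplexConjugate
open Filter MeasureTheory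
open Vale.Agent.P132 Vale.Agent.P132.Fixed
open Vale.Agent.P132.Random (L2 Mat act dg xi InM)

universe u

variable {H : Type u} [NormedAddCommGroup H] [InnerProductSpace ℂ H] [CompleteSpace H]
  {M : VonNeumannAlgebra H} {Ω : H} {D : ModData M Ω}

theorem inner_star (x : H →L[ℂ] H) (v w : H) : ⟪v, star x w⟫_ℂ = ⟪x v, w⟫_ℂ := by
  rw [ContinuousLinearMap.star_eq_adjoint, ContinuousLinearMap.adjoint_inner_right]

/-- The transfer property of `a`, for geometric weights on `2^k` levels. -/
def Transfers (D : ModData M Ω) (a : H →L[ℂ] H) : Prop :=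
  ∀ η : ℝ, 0 < η → ∃ δ : ℝ, 0 < δ ∧
    ∀ (m k : ℕ) (W : Fin (2 ^ k) → Fin (2 ^ k) → H →L[ℂ] H), IsUnitaryMat M W →
      cent2 D (cw (2 ^ m) (2 ^ k)) W ≤ δ → comm2 Ω (cw (2 ^ m) (2 ^ k)) (fun _ => a) W ≤ η

/-- The off-diagonal weights of the test. -/
noncomputable def ec (P : ℝ) (χ : ℝ → ℝ) (N : ℕ) (j k : Fin N) : ℝ :=
  if j = k then 0 else
    stp P N * χ (node P N j) ^ 2 * (stp P N * χ (node P N k) ^ 2)

/-- The test vector. -/
noncomputable def tvec (P : ℝ) (χ : ℝ → ℝ) (N : ℕ) (η : H) : L2 H N :=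
  WithLp.toLp 2 fun p => ((√(stp P N) * stp P N * χ (node P N p.1) * χ (node P N p.2) /
    √(cw P N p.2) : ℝ) : ℂ) • η

/-- The scalar function of the test. -/
noncomputable def kfun (D : ModData M Ω) (η : H) (a x : H →L[ℂ] H) (t : ℝ) : ℂ :=
  ⟪a η, sig D t x Ω⟫_ℂ - ⟪η, sig D t x (a Ω)⟫_ℂ

section estimates

variable {a x : H →L[ℂ] H} {P : ℝ} {χ : ℝ → ℝ} {T : ℝ} {N : ℕ} (η : H)

theorem stp_le_cw (hP : 0 < P) (hN : 0 < N) (j : Fin N) :
    stp P N ≤ P * Real.exp P * cw P N j := by
  have h := (rat_bounds hP hN).1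
  rw [rat, div_le_div_iff₀ hP (stp_pos hP hN), one_mul] at h
  have hl := lam_pos P hN
  calc stp P N ≤ lam P N * P := h
    _ = P * lam P N * 1 := by ring
    _ ≤ P * lam P N * (Real.exp P * Real.exp (-node P N j)) := by
        refine mul_le_mul_of_nonneg_left ?_ (by positivity)
        rw [← Real.exp_add]
        exact Real.one_le_exp (by linarith [(node_mem hP j.2.le).2])
    _ = _ := by rw [cw]; ring

theorem pair_eq (hP : 0 < P) (hN : 0 < N) (B : Fin N → H →L[ℂ] H) :
    ⟪tvec P χ N η, act (dg B * CStarMatrix.ofMatrix (Lmat D x P χ T N) -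
      CStarMatrix.ofMatrix (Lmat D x P χ T N) * dg B) (xi Ω (cw P N))⟫_ℂ =
    ∑ j, ∑ k, (ec P χ N j k : ℂ) *
      ⟪η, B j (sop D (fun t => gauss T (node P N j - node P N k) (t : ℂ)) x Ω) -
        sop D (fun t => gauss T (node P N j - node P N k) (t : ℂ)) x (B k Ω)⟫_ℂ := by
  rw [PiLp.inner_apply, Fintype.sum_prod_type]
  refine Finset.sum_congr rfl fun j _ => Finset.sum_congr rfl fun k _ => ?_
  rw [Random.act_xi]
  rw [CStarMatrix.sub_apply, Random.dg_mul, Random.mul_dg,
    show ∀ i l, CStarMatrix.ofMatrix (Lmat D x P χ T N) i l = Lmat D x P χ T N i l from fun _ _ => rfl]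
  simp only [tvec,
    inner_smul_left, inner_smul_right, Complex.conj_ofReal, sub_apply, mul_apply_eq_comp, Lmat,
    smul_apply, map_smul, ← smul_sub]
  have hc : √(cw P N k) ≠ 0 := (Real.sqrt_pos.2 (cw_pos P hN k)).ne'
  have e : √(stp P N) * stp P N * χ (node P N j) * χ (node P N k) / √(cw P N k) *
      √(cw P N k) * cf P χ N j k = ec P χ N j k := by
    rw [div_mul_cancel₀ _ hc, ec, cf]
    split_ifs
    · simp
    · linear_combination (stp P N * χ (node P N j) ^ 2 * χ (node P N k) ^ 2) *
        Real.mul_self_sqrt (stp_pos hP hN).le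
  rw [← e]
  push_cast
  ring

theorem norm_tvec_le (hP : 0 < P) (hN : 0 < N) (hb : ∀ p, |χ p| ≤ 1) :
    ‖tvec P χ N η‖ ≤ √(P ^ 3 * Real.exp P) * ‖η‖ := by
  refine le_of_sq_le_sq ?_ (by positivity)
  rw [mul_pow, Real.sq_sqrt (by positivity), PiLp.norm_sq_eq_of_L2, Fintype.sum_prod_type]
  set h := stp P N with hh
  have h0 : 0 < h := stp_pos hP hN
  refine (Finset.sum_le_sum fun (j : Fin N) _ => Finset.sum_le_sum
    (g := fun _ : Fin N => h ^ 2 * (P * Real.exp P) * ‖η‖ ^ 2) fun (k : Fin N) _ => ?_).trans_eq ?_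
  · have hc := cw_pos P hN k
    simp only [tvec, norm_smul, Complex.norm_real, Real.norm_eq_abs, mul_pow, sq_abs, div_pow,
      Real.sq_sqrt hc.le, ← hh, Real.sq_sqrt h0.le]
    refine mul_le_mul_of_nonneg_right ?_ (sq_nonneg _)
    rw [div_le_iff₀ hc]
    have h1 : χ (node P N j) ^ 2 ≤ 1 := (sq_le_one_iff_abs_le_one _).2 (hb _)
    have h2 : χ (node P N k) ^ 2 ≤ 1 := (sq_le_one_iff_abs_le_one _).2 (hb _)
    calc h * h ^ 2 * χ (node P N j) ^ 2 * χ (node P N k) ^ 2 ≤ h * h ^ 2 * 1 * 1 := by gcongr
      _ ≤ P * Real.exp P * cw P N k * h ^ 2 * 1 * 1 := by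
          gcongr; exact stp_le_cw hP hN k
      _ = _ := by ring
  · simp only [Finset.sum_const, Finset.card_univ, Fintype.card_fin, nsmul_eq_mul, hh, stp]
    field_simp

/-- The row sums of the generator at `Ω`. -/
theorem norm_row (hP : 0 < P) (hN : 0 < N) (hT : 0 < T) (hb : ∀ p, |χ p| ≤ 1) (j : Fin N) :
    ‖∑ k, (ec P χ N j k : ℂ) •
      sop D (fun t => gauss T (node P N j - node P N k) (t : ℂ)) x Ω‖ ≤
    stp P N * (((∫ t : ℝ, ‖gam T t‖ *
      ‖∑ k : Fin N, ((stp P N * χ (node P N k) ^ 2 : ℝ) : ℂ) * ph (node P N k) t‖) +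
        stp P N * ∫ t : ℝ, ‖gam T t‖) * ‖x Ω‖) := by
  set h := stp P N with hh
  have h0 : 0 < h := stp_pos hP hN
  set w : ℕ → ℝ := fun i => h * χ (node P N i) ^ 2 with hw
  have hw1 : ∀ i, 0 ≤ w i ∧ w i ≤ h := fun i =>
    ⟨by positivity, mul_le_of_le_one_right h0.le ((sq_le_one_iff_abs_le_one _).2 (hb _))⟩
  simp only [sop_omega D (integrable_gauss hT _)]
  have e : ∑ k : Fin N, (ec P χ N j k : ℂ) •
      vint D (fun t => gauss T (node P N j - node P N k) (t : ℂ)) (x Ω) =
      vint D (fun t => ∑ k : Fin N, (ec P χ N j k : ℂ) *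
        gauss T (node P N j - node P N k) (t : ℂ)) (x Ω) := by
    rw [vint_sum D _ _ fun k _ => (integrable_gauss hT _).const_mul _]
    simp only [vint_const_mul]
  rw [e]
  refine (norm_vint_le D _ _).trans ?_
  rw [← mul_assoc]
  refine mul_le_mul_of_nonneg_right ?_ (norm_nonneg _)
  set F : ℝ → ℝ := fun t => ‖gam T t‖ * ‖∑ k : Fin N, (w k : ℂ) * ph (node P N k) t‖
  have hFi : Integrable F := by
    refine (integrable_gam hT).norm.mul_bdd ?_ (c := ∑ k : Fin N, |w k|)
      (Eventually.of_forall fun t => ?_)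
    · exact (Continuous.norm (continuous_finsetSum _ fun k _ => continuous_const.mul
        (continuous_ph.comp (continuous_const.prodMk continuous_id)))).aestronglyMeasurable
    · rw [norm_norm]
      refine (norm_sum_le _ _).trans (Finset.sum_le_sum fun k _ => ?_)
      simp [norm_ph]
  rw [mul_add, ← integral_const_mul, ← integral_const_mul, ← integral_const_mul,
    ← integral_add (hFi.const_mul h) (((integrable_gam hT).norm.const_mul _).const_mul _)]
  refine integral_mono_of_nonneg (Eventually.of_forall fun t => norm_nonneg _)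
    ((hFi.const_mul h).add (((integrable_gam hT).norm.const_mul _).const_mul _))
    (Eventually.of_forall fun t => ?_)
  have ec' : ∀ k : Fin N, (ec P χ N j k : ℂ) =
      (w j : ℂ) * (w k : ℂ) - if j = k then (w j : ℂ) * (w j : ℂ) else 0 := by
    intro k
    simp only [ec, hw, ← hh]
    split_ifs with hjk
    · subst hjk; simp
    · push_cast; ring
  have e2 : ∑ k : Fin N, (ec P χ N j k : ℂ) * gauss T (node P N j - node P N k) (t : ℂ) =
      gam T t * ((w j : ℂ) * (ph (node P N j) t *
        conj (∑ k : Fin N, (w k : ℂ) * ph (node P N k) t)) - (w j : ℂ) * (w j : ℂ)) := by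
    simp only [ec', sub_mul, Finset.sum_sub_distrib, ite_mul, zero_mul, Finset.sum_ite_eq,
      Finset.mem_univ, if_true, map_sum, Finset.mul_sum, gauss_eq, map_mul, Complex.conj_ofReal,
      conj_ph, mul_sub]
    congr 1
    · refine Finset.sum_congr rfl fun k _ => ?_
      rw [sub_eq_add_neg, ph_add]; ring
    · have h1 : ph (node P N j - node P N j) t = 1 := by simp [ph]
      rw [h1]; ring
  dsimp only
  rw [e2, norm_mul]
  calc ‖gam T t‖ * ‖(w j : ℂ) * (ph (node P N j) t *
        conj (∑ k : Fin N, (w k : ℂ) * ph (node P N k) t)) - (w j : ℂ) * (w j : ℂ)‖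
      ≤ ‖gam T t‖ * (h * ‖∑ k : Fin N, (w k : ℂ) * ph (node P N k) t‖ + h * h) := by
        refine mul_le_mul_of_nonneg_left ((norm_sub_le _ _).trans (add_le_add ?_ ?_)) (norm_nonneg _)
        · rw [norm_mul, norm_mul, norm_ph, one_mul, Complex.norm_conj, Complex.norm_real,
            Real.norm_of_nonneg (hw1 j).1]
          exact mul_le_mul_of_nonneg_right (hw1 j).2 (norm_nonneg _)
        · rw [norm_mul, Complex.norm_real, Real.norm_of_nonneg (hw1 j).1]
          exact mul_le_mul (hw1 j).2 (hw1 j).2 (hw1 j).1 h0.le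
    _ = _ := by simp only [F,]; ring

/-- The pairing is bounded by the `L²` norm of its argument. -/
theorem pair_bound (S : Gen M x P χ) (hN : 0 < N) (hT : 0 < T) {y : H →L[ℂ] H}
    (hy : y ∈ M.commutant) {K : ℝ}
    (hK : ((∫ t : ℝ, ‖gam T t‖ *
      ‖∑ k : Fin N, ((stp P N * χ (node P N k) ^ 2 : ℝ) : ℂ) * ph (node P N k) t‖) +
        stp P N * ∫ t : ℝ, ‖gam T t‖) * ‖x Ω‖ ≤ K)
    (B : Fin N → H →L[ℂ] H) (hB : ∀ j, B j ∈ M ∧ IsSelfAdjoint (B j)) :
    ‖⟪tvec P χ N (y Ω), act (dg B * CStarMatrix.ofMatrix (Lmat D x P χ T N) -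
      CStarMatrix.ofMatrix (Lmat D x P χ T N) * dg B) (xi Ω (cw P N))⟫_ℂ‖ ≤
    2 * (‖y‖ * K) * (P * Real.exp P) * √(∑ j, cw P N j * ‖B j Ω‖ ^ 2) := by
  have hP := S.pos
  have hyM : ∀ b ∈ M, ∀ v, b (y v) = y (b v) := fun b hb v =>
    congrArg (fun f : H →L[ℂ] H => f v) (VonNeumannAlgebra.mem_commutant_iff.1 hy b hb)
  set h := stp P N with hh
  have h0 : 0 < h := stp_pos hP hN
  set X : Fin N → Fin N → H →L[ℂ] H := fun j k =>
    sop D (fun t => gauss T (node P N j - node P N k) (t : ℂ)) x with hX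
  have hXM : ∀ j k, X j k ∈ M := fun j k => sop_mem D (integrable_gauss hT _) S.mem
  have hXs : ∀ j k, star (X j k) = X k j := fun j k => by
    simp only [hX]
    rw [star_sop D (integrable_gauss hT _), S.sa]
    simp [conj_gauss]
  have hes : ∀ j k, ec P χ N k j = ec P χ N j k := fun j k => by
    unfold ec
    by_cases hjk : j = k
    · simp [hjk]
    · rw [if_neg hjk, if_neg (Ne.symm hjk)]; ring
  set R : Fin N → H := fun j => ∑ k, (ec P χ N j k : ℂ) • X j k Ω with hR
  have hRn : ∀ j, ‖R j‖ ≤ h * K := fun j =>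
    (norm_row hP hN hT S.bound j).trans (mul_le_mul_of_nonneg_left hK h0.le)
  have e : ∑ j, ∑ k, (ec P χ N j k : ℂ) * ⟪y Ω, B j (X j k Ω) - X j k (B k Ω)⟫_ℂ =
      ∑ j, ⟪y (B j Ω), R j⟫_ℂ - ∑ k, ⟪y (R k), B k Ω⟫_ℂ := by
    simp only [inner_sub_right, mul_sub, Finset.sum_sub_distrib]
    congr 1
    · refine Finset.sum_congr rfl fun j _ => ?_
      rw [hR, inner_sum]
      refine Finset.sum_congr rfl fun k _ => ?_
      rw [inner_smul_right, ← hyM _ (hB j).1]
      congr 1
      conv_lhs => rw [← (hB j).2.star_eq]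
      rw [inner_star]
    · rw [Finset.sum_comm]
      refine Finset.sum_congr rfl fun k _ => ?_
      rw [hR, map_sum, sum_inner]
      refine Finset.sum_congr rfl fun j _ => ?_
      rw [map_smul, inner_smul_left, Complex.conj_ofReal, hes, ← hyM _ (hXM k j)]
      congr 1
      conv_lhs => rw [← hXs k j]
      rw [inner_star]
  rw [pair_eq (y Ω) hP hN, e]
  have hb1 : ∀ j, ‖⟪y (B j Ω), R j⟫_ℂ‖ ≤ ‖y‖ * K * (h * ‖B j Ω‖) := fun j => by
    refine (norm_inner_le_norm _ _).trans ?_
    calc ‖y (B j Ω)‖ * ‖R j‖ ≤ ‖y‖ * ‖B j Ω‖ * (h * K) := by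
          gcongr
          · exact y.le_opNorm _
          · exact hRn j
      _ = _ := by ring
  have hb2 : ∀ j, ‖⟪y (R j), B j Ω⟫_ℂ‖ ≤ ‖y‖ * K * (h * ‖B j Ω‖) := fun j => by
    refine (norm_inner_le_norm _ _).trans ?_
    calc ‖y (R j)‖ * ‖B j Ω‖ ≤ ‖y‖ * (h * K) * ‖B j Ω‖ := by
          gcongr
          exact (y.le_opNorm _).trans (by gcongr; exact hRn j)
      _ = _ := by ring
  have hK0 : 0 ≤ K := le_trans (mul_nonneg (add_nonneg (integral_nonneg fun t => by positivity)
    (mul_nonneg h0.le (integral_nonneg fun t => norm_nonneg _))) (norm_nonneg _)) hK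
  have hsum : ∑ j : Fin N, cw P N j * ‖B j Ω‖ ≤ √(∑ j, cw P N j * ‖B j Ω‖ ^ 2) := by
    refine Real.le_sqrt_of_sq_le ?_
    have := Finset.sum_mul_sq_le_sq_mul_sq Finset.univ (fun j : Fin N => √(cw P N j))
      fun j => √(cw P N j) * ‖B j Ω‖
    simp only [← mul_assoc, Real.mul_self_sqrt (cw_pos P hN _).le, mul_pow,
      Real.sq_sqrt (cw_pos P hN _).le, sum_cw P hN, one_mul] at this
    exact this
  calc _ ≤ ∑ j, ‖y‖ * K * (h * ‖B j Ω‖) + ∑ j, ‖y‖ * K * (h * ‖B j Ω‖) :=
        (norm_sub_le _ _).trans (add_le_add ((norm_sum_le _ _).trans (Finset.sum_le_sum fun j _ => hb1 j))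
          ((norm_sum_le _ _).trans (Finset.sum_le_sum fun j _ => hb2 j)))
    _ ≤ 2 * (‖y‖ * K) * (P * Real.exp P) * ∑ j, cw P N j * ‖B j Ω‖ := by
        rw [Finset.mul_sum, ← Finset.sum_add_distrib]
        refine Finset.sum_le_sum fun j _ => ?_
        have := mul_le_mul_of_nonneg_right (stp_le_cw hP hN j) (norm_nonneg (B j Ω))
        calc _ = 2 * (‖y‖ * K) * (h * ‖B j Ω‖) := by ring
          _ ≤ 2 * (‖y‖ * K) * (P * Real.exp P * cw P N j * ‖B j Ω‖) := by gcongr
          _ = _ := by ring
    _ ≤ _ := by gcongr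

theorem continuous_kfun : Continuous (kfun D η a x) :=
  (continuous_const.inner (continuous_sig_comp D continuous_id continuous_const x)).sub
    (continuous_const.inner (continuous_sig_comp D continuous_id continuous_const x))

theorem norm_kfun_le (t : ℝ) :
    ‖kfun D η a x t‖ ≤ ‖a η‖ * (‖x‖ * ‖Ω‖) + ‖η‖ * (‖x‖ * ‖a Ω‖) :=
  (norm_sub_le _ _).trans (add_le_add
    ((norm_inner_le_norm _ _).trans (mul_le_mul_of_nonneg_left (norm_sig_le D _ _ _) (norm_nonneg _)))
    ((norm_inner_le_norm _ _).trans (mul_le_mul_of_nonneg_left (norm_sig_le D _ _ _) (norm_nonneg _))))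

/-- The pairing at the constant diagonal is an integral. -/
theorem pair_const (hP : 0 < P) (hN : 0 < N) (hT : 0 < T) (ha : star a = a) :
    ⟪tvec P χ N η, act (dg (fun _ => a) * CStarMatrix.ofMatrix (Lmat D x P χ T N) -
      CStarMatrix.ofMatrix (Lmat D x P χ T N) * dg (fun _ => a)) (xi Ω (cw P N))⟫_ℂ =
    ∫ t : ℝ, gam T t * ((∑ k : Fin N, ((stp P N * χ (node P N k) ^ 2 : ℝ) : ℂ) * ph (node P N k) t) *
      conj (∑ k : Fin N, ((stp P N * χ (node P N k) ^ 2 : ℝ) : ℂ) * ph (node P N k) t) -
        ((∑ k : Fin N, (stp P N * χ (node P N k) ^ 2) ^ 2 : ℝ) : ℂ)) * kfun D η a x t := by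
  rw [pair_eq η hP hN]
  have hk : ∀ E, ⟪η, a (sop D (fun t => gauss T E (t : ℂ)) x Ω) -
      sop D (fun t => gauss T E (t : ℂ)) x (a Ω)⟫_ℂ =
        ∫ t : ℝ, gauss T E (t : ℂ) * kfun D η a x t := by
    intro E
    have hg := integrable_gauss hT E
    conv_lhs => rw [inner_sub_right, ← ha, inner_star]
    rw [sop_apply D hg, sop_apply D hg, ha,
      ← integral_inner (integrable_smul_sig D hg x _),
      ← integral_inner (integrable_smul_sig D hg x _), ← integral_sub]
    · refine integral_congr_ae (Eventually.of_forall fun t => ?_)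
      simp only [inner_smul_right, kfun]; ring
    · exact (innerSL ℂ (a η)).integrable_comp (integrable_smul_sig D hg x _)
    · exact (innerSL ℂ η).integrable_comp (integrable_smul_sig D hg x _)
  simp only [hk, ← integral_const_mul]
  have hi : ∀ j k : Fin N, Integrable fun t : ℝ => (ec P χ N j k : ℂ) *
      (gauss T (node P N j - node P N k) (t : ℂ) * kfun D η a x t) := fun j k =>
    ((integrable_gauss hT _).mul_bdd (continuous_kfun η).aestronglyMeasurable
      (Eventually.of_forall fun t => norm_kfun_le η t)).const_mul _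
  rw [Finset.sum_congr rfl fun j _ => (integral_finsetSum _ fun k _ => hi j k).symm,
    ← integral_finsetSum _ fun j _ => integrable_finsetSum _ fun k _ => hi j k]
  refine integral_congr_ae (Eventually.of_forall fun t => ?_)
  set w : ℕ → ℝ := fun i => stp P N * χ (node P N i) ^ 2 with hw
  have ec' : ∀ j k : Fin N, (ec P χ N j k : ℂ) =
      (w j : ℂ) * (w k : ℂ) - if j = k then ((w j ^ 2 : ℝ) : ℂ) else 0 := by
    intro j k
    simp only [ec, hw]
    split_ifs with hjk
    · subst hjk; push_cast; ring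
    · push_cast; ring
  simp only [ec', sub_mul, Finset.sum_sub_distrib, ite_mul, zero_mul, Finset.sum_ite_eq,
    Finset.mem_univ, if_true, map_sum, Complex.ofReal_sum, mul_sub, Finset.sum_mul, Finset.mul_sum,
    gauss_eq, map_mul, Complex.conj_ofReal, conj_ph]
  congr 1
  · rw [Finset.sum_comm]
    refine Finset.sum_congr rfl fun j _ => Finset.sum_congr rfl fun k _ => ?_
    rw [sub_eq_add_neg, ph_add]; ring
  · refine Finset.sum_congr rfl fun j _ => ?_
    have h1 : ph (node P N j - node P N j) t = 1 := by simp [ph]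
    rw [h1]; ring

end estimates

variable (D) in
/-- The test vanishes at every width. -/
theorem integral_eq_zero (hΩ : IsCS M Ω) {a x : H →L[ℂ] H} (ha : a ∈ M) (has : star a = a)
    (han : ‖a‖ ≤ 1) (htr : Transfers D a) {χ : ℝ → ℝ} {m : ℕ} (S : Gen M x (2 ^ m) χ)
    (hχ : Test χ) (hsupp : ∀ p, χ p ≠ 0 → p ∈ Set.Ioo 0 ((2 : ℝ) ^ m)) {y : H →L[ℂ] H}
    (hy : y ∈ M.commutant) :
    ∫ t : ℝ, (fourierT (fun p => χ p * χ p) t * conj (fourierT (fun p => χ p * χ p) t)) *
      kfun D (y Ω) a x t = 0 := by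
  set P : ℝ := 2 ^ m with hPdef
  have hP := S.pos
  have hv : Test fun p => χ p * χ p := hχ.mul_smooth hχ.smooth
  set G := fourierT (fun p => χ p * χ p) with hG
  set κ := kfun D (y Ω) a x with hκ
  set Bk := ‖a (y Ω)‖ * (‖x‖ * ‖Ω‖) + ‖y Ω‖ * (‖x‖ * ‖a Ω‖) with hBk
  obtain ⟨Cg, hCg⟩ : ∃ C, ∀ t, ‖G t‖ ≤ C := ⟨_, fun t => norm_fourierT_le _ t⟩
  have hGi : Integrable fun t => G t * conj (G t) :=
    hv.integrable_fourierT.mul_bdd (Complex.continuous_conj.comp hv.continuous_fourierT).aestronglyMeasurable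
      (c := Cg) (Eventually.of_forall fun t => by rw [Complex.norm_conj]; exact hCg t)
  -- the limit in the width
  have hlimT : Tendsto (fun T : ℝ => ∫ t : ℝ, gam T t * (G t * conj (G t)) * κ t) atTop
      (𝓝 (∫ t : ℝ, G t * conj (G t) * κ t)) := by
    apply tendsto_integral_filter_of_dominated_convergence (fun t => ‖G t * conj (G t)‖ * Bk)
    · exact Eventually.of_forall fun T => ((((continuous_gam T).comp Complex.continuous_ofReal).mul
        (hv.continuous_fourierT.mul (Complex.continuous_conj.comp hv.continuous_fourierT))).mul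
          (continuous_kfun _)).aestronglyMeasurable
    · refine Eventually.of_forall fun T => Eventually.of_forall fun t => ?_
      rw [norm_mul, norm_mul]
      exact mul_le_mul (mul_le_of_le_one_left (norm_nonneg _) (norm_gam_le_one T t))
        (norm_kfun_le _ t) (norm_nonneg _) (norm_nonneg _)
    · exact hGi.norm.mul_const _
    · filter_upwards with t
      simpa using ((tendsto_gam t).mul_const (G t * conj (G t))).mul_const (κ t)
  set K := ((∫ t : ℝ, ‖G t‖) + 2) * ‖x Ω‖ with hK
  set C := 2 * (‖y‖ * K) * (P * Real.exp P) with hC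
  have hC0 : 0 ≤ C := by
    have : 0 ≤ ∫ t : ℝ, ‖G t‖ := integral_nonneg fun _ => norm_nonneg _
    positivity
  set Z := √(P ^ 3 * Real.exp P) * ‖y Ω‖ with hZ
  have hbound : ∀ η : ℝ, 0 < η →
      ‖∫ t : ℝ, G t * conj (G t) * κ t‖ ≤ Z * √(8 * √η) + C * (2 * √η) := by
    intro η hη
    obtain ⟨δ, hδ, hW⟩ := htr η hη
    have hd0 : 0 < min (η * δ / 8) √η := lt_min (by positivity) (by positivity)
    refine le_of_tendsto hlimT.norm ?_
    filter_upwards [drift_small (D := D) S hχ hsupp hd0, eventually_ge_atTop 1] with T hTd hT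
    have hT0 : 0 < T := by linarith
    set S' : ℕ → ℝ → ℂ := fun N t =>
      ∑ k : Fin N, ((stp P N * χ (node P N k) ^ 2 : ℝ) : ℂ) * ph (node P N k) t with hS'
    have hS'c : ∀ N, Continuous (S' N) := fun N => continuous_finsetSum _ fun k _ =>
      continuous_const.mul (continuous_ph.comp (continuous_const.prodMk continuous_id))
    have hwle : ∀ {N : ℕ}, 0 < N → ∀ k : Fin N, stp P N * χ (node P N k) ^ 2 ≤ stp P N := fun hN k =>
      mul_le_of_le_one_right (stp_pos hP hN).le ((sq_le_one_iff_abs_le_one _).2 (S.bound _))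
    have hS'b : ∀ᶠ N in atTop, ∀ t, ‖S' N t‖ ≤ P := by
      filter_upwards [eventually_gt_atTop 0] with N hN t
      refine (norm_sum_le _ _).trans ((Finset.sum_le_sum fun (k : Fin N) _ => ?_).trans_eq
        (b := ∑ _k : Fin N, stp P N) ?_)
      · rw [norm_mul, norm_ph, mul_one, Complex.norm_real,
          Real.norm_of_nonneg (mul_nonneg (stp_pos hP hN).le (sq_nonneg _))]
        exact hwle hN k
      · simp [stp]; field_simp
    have hS't : ∀ t, Tendsto (fun N => S' N t) atTop (𝓝 (G t)) := by
      intro t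
      have hc : Continuous fun q => ((χ q * χ q : ℝ) : ℂ) * ph q t :=
        (Complex.continuous_ofReal.comp hv.continuous).mul
          (continuous_ph.comp (continuous_id.prodMk continuous_const))
      have h1 := grid1 hP hc
      have e : (∫ q in (0 : ℝ)..P, ((χ q * χ q : ℝ) : ℂ) * ph q t) = G t := by
        rw [intervalIntegral.integral_of_le hP.le,
          setIntegral_eq_integral_of_forall_compl_eq_zero, hG, fourierT_apply]
        intro q hq
        have : χ q = 0 := by
          by_contra h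
          exact hq ⟨(hsupp q h).1, (hsupp q h).2.le⟩
        simp [this]
      rw [e] at h1
      refine h1.congr fun N => Finset.sum_congr rfl fun k _ => ?_
      rw [Complex.real_smul]; push_cast; ring
    have hstp : Tendsto (fun N : ℕ => stp P N) atTop (𝓝 0) :=
      tendsto_const_nhds.div_atTop tendsto_natCast_atTop_atTop
    -- the row sums
    have hrow : ∀ᶠ N : ℕ in atTop, ((∫ t : ℝ, ‖gam T t‖ * ‖S' N t‖) +
        stp P N * ∫ t : ℝ, ‖gam T t‖) * ‖x Ω‖ ≤ K := by
      have h1 : Tendsto (fun N => ∫ t : ℝ, ‖gam T t‖ * ‖S' N t‖) atTop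
          (𝓝 (∫ t : ℝ, ‖gam T t‖ * ‖G t‖)) := by
        apply tendsto_integral_filter_of_dominated_convergence (fun t : ℝ => ‖gam T t‖ * P)
        · exact Eventually.of_forall fun N =>
            (((continuous_gam T).comp Complex.continuous_ofReal).norm.mul
              (hS'c N).norm).aestronglyMeasurable
        · filter_upwards [hS'b] with N hN
          filter_upwards with t
          rw [norm_mul, norm_norm, norm_norm]
          exact mul_le_mul_of_nonneg_left (hN t) (norm_nonneg _)
        · exact (integrable_gam hT0).norm.mul_const _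
        · filter_upwards with t
          exact (hS't t).norm.const_mul _
      have h2 := h1.add (hstp.mul_const (∫ t : ℝ, ‖gam T t‖))
      rw [zero_mul, add_zero] at h2
      have hle : ∫ t : ℝ, ‖gam T t‖ * ‖G t‖ ≤ ∫ t : ℝ, ‖G t‖ :=
        integral_mono_of_nonneg (Eventually.of_forall fun t => by positivity)
          hv.integrable_fourierT.norm (Eventually.of_forall fun t =>
            mul_le_of_le_one_left (norm_nonneg _) (norm_gam_le_one T t))
      refine (h2.eventually (ge_mem_nhds (show (∫ t : ℝ, ‖gam T t‖ * ‖G t‖) <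
        (∫ t : ℝ, ‖G t‖) + 2 by linarith))).mono fun N hN => ?_
      rw [hK]
      exact mul_le_mul_of_nonneg_right hN (norm_nonneg _)
    -- the limit in the number of levels
    have hlimN : Tendsto (fun N : ℕ => ∫ t : ℝ, gam T t * (S' N t * conj (S' N t) -
        ((∑ k : Fin N, (stp P N * χ (node P N k) ^ 2) ^ 2 : ℝ) : ℂ)) * κ t) atTop
        (𝓝 (∫ t : ℝ, gam T t * (G t * conj (G t)) * κ t)) := by
      have hd : ∀ᶠ N : ℕ in atTop,
          ‖((∑ k : Fin N, (stp P N * χ (node P N k) ^ 2) ^ 2 : ℝ) : ℂ)‖ ≤ P * stp P N := by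
        filter_upwards [eventually_gt_atTop 0] with N hN
        have h0 := (stp_pos hP hN).le
        rw [Complex.norm_real, Real.norm_of_nonneg (Finset.sum_nonneg fun _ _ => sq_nonneg _)]
        refine (Finset.sum_le_sum fun (k : Fin N) _ => pow_le_pow_left₀
          (mul_nonneg h0 (sq_nonneg _)) (hwle hN k) 2).trans_eq ?_
        simp [stp]; field_simp
      have hd0 : Tendsto (fun N : ℕ => ((∑ k : Fin N, (stp P N * χ (node P N k) ^ 2) ^ 2 : ℝ) : ℂ))
          atTop (𝓝 0) :=
        squeeze_zero_norm' hd (by simpa using hstp.const_mul P)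
      apply tendsto_integral_filter_of_dominated_convergence
        (fun t : ℝ => ‖gam T t‖ * (P * P + P * P) * Bk)
      · exact Eventually.of_forall fun N => ((((continuous_gam T).comp Complex.continuous_ofReal).mul
          (((hS'c N).mul (Complex.continuous_conj.comp (hS'c N))).sub continuous_const)).mul
            (continuous_kfun _)).aestronglyMeasurable
      · filter_upwards [hS'b, hd, eventually_gt_atTop 0] with N hN hN2 hN0
        filter_upwards with t
        rw [norm_mul, norm_mul]
        have hb : stp P N ≤ P := div_le_self hP.le (by exact_mod_cast hN0)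
        have : P * stp P N ≤ P * P := by gcongr
        refine mul_le_mul (mul_le_mul_of_nonneg_left ((norm_sub_le _ _).trans (add_le_add ?_
          (hN2.trans this))) (norm_nonneg _)) (norm_kfun_le _ t) (norm_nonneg _) (by positivity)
        rw [norm_mul, Complex.norm_conj]
        exact mul_le_mul (hN t) (hN t) (norm_nonneg _) hP.le
      · exact ((integrable_gam hT0).norm.mul_const _).mul_const _
      · filter_upwards with t
        simpa using (((hS't t).mul ((Complex.continuous_conj.tendsto _).comp (hS't t))).sub hd0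
          |>.const_mul (gam T t)).mul_const (κ t)
    have hpow : Tendsto (fun k : ℕ => 2 ^ k) atTop atTop :=
      tendsto_pow_atTop_atTop_of_one_lt one_lt_two
    refine le_of_tendsto ((hlimN.comp hpow).norm) ?_
    filter_upwards [hpow.eventually hTd, hpow.eventually hrow] with k hdr hrw
    have hN : 0 < 2 ^ k := Nat.two_pow_pos k
    rw [Function.comp_apply, ← pair_const (y Ω) hP hN hT0 has]
    have h := dissip D hΩ (A := fun _ : Fin (2 ^ k) => a) (L := Lmat D x P χ T (2 ^ k))
      (zv := tvec P χ (2 ^ k) (y Ω)) (C := C) (cw_pos P hN) (sum_cw P hN) hδ hη.le hC0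
      (fun _ => ⟨ha, has, han⟩) (Lmat_mem S hT0) (Lmat_star S hT0) Lmat_diag
      (fun W' hW' hW'' => hW m k W' hW' hW'')
      (fun B hB => pair_bound S hN hT0 hy hrw B hB)
    set d := drift D (cw P (2 ^ k)) (Lmat D x P χ T (2 ^ k)) with hdd
    have he : √η + 2 * √(2 * d / δ) ≤ 2 * √η := by
      have : 2 * d / δ ≤ η / 4 := by
        rw [div_le_iff₀ hδ]
        linarith [hdr.trans (min_le_left _ _)]
      have h4 : √(η / 4) = √η / 2 := by
        rw [Real.sqrt_div hη.le]; congr 1
        rw [show (4 : ℝ) = 2 ^ 2 by norm_num]; exact Real.sqrt_sq (by norm_num)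
      linarith [(Real.sqrt_le_sqrt this).trans_eq h4]
    have h8 : 2 * (√η + 2 * √(2 * d / δ)) + 4 * d ≤ 8 * √η := by
      linarith [hdr.trans (min_le_right _ _)]
    refine h.trans (add_le_add (mul_le_mul ?_ (Real.sqrt_le_sqrt h8) (Real.sqrt_nonneg _)
      (by positivity)) (mul_le_mul_of_nonneg_left he hC0))
    exact norm_tvec_le (y Ω) hP hN S.bound
  have h0 : Tendsto (fun η : ℝ => Z * √(8 * √η) + C * (2 * √η)) (𝓝[>] 0) (𝓝 0) := by
    have : Continuous fun η : ℝ => Z * √(8 * √η) + C * (2 * √η) := by fun_prop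
    simpa using (this.tendsto 0).mono_left nhdsWithin_le_nhds
  refine norm_le_zero_iff.1 (ge_of_tendsto h0 ?_)
  filter_upwards [self_mem_nhdsWithin] with η hη using hbound η hη

variable (D) in
/-- An element with the transfer property is central. -/
theorem central_of_transfer (hΩ : IsCS M Ω) {a : H →L[ℂ] H} (ha : a ∈ M) (has : star a = a)
    (han : ‖a‖ ≤ 1) (htr : Transfers D a) : ∀ x ∈ M, a * x = x * a := by
  -- the vector vanishes for selfadjoint `x`
  have key : ∀ x ∈ M, star x = x → (a * x - x * a) Ω = 0 := by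
    intro x hx hxs
    let b : ContDiffBump (1 / 2 : ℝ) := ⟨1 / 8, 1 / 4, by norm_num, by norm_num⟩
    have hbt : Test fun p => b p := ⟨b.contDiff, b.hasCompactSupport⟩
    set G₁ := fourierT (fun p => b p * b p) with hG₁
    have hbb : Test fun p => b p * b p := hbt.mul_smooth hbt.smooth
    set w : ℝ → ℂ := fun s => G₁ s * conj (G₁ s) with hw
    have hwc : Continuous w :=
      hbb.continuous_fourierT.mul (Complex.continuous_conj.comp hbb.continuous_fourierT)
    have hwi : Integrable w := hbb.integrable_fourierT.mul_bdd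
      (Complex.continuous_conj.comp hbb.continuous_fourierT).aestronglyMeasurable
      (Eventually.of_forall fun t => (Complex.norm_conj _).le.trans (norm_fourierT_le _ t))
    have hne : (∫ s, w s) ≠ 0 := by
      have e : ∀ s, w s = ((Complex.normSq (G₁ s) : ℝ) : ℂ) := fun s => Complex.mul_conj _
      rw [integral_congr_ae (Eventually.of_forall e), integral_complex_ofReal,
        Complex.ofReal_ne_zero]
      have hi : Integrable fun s => Complex.normSq (G₁ s) := by
        simpa [e] using hwi.re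
      have hb0 : G₁ 0 ≠ 0 := by
        rw [hG₁, fourierT_zero, Complex.ofReal_ne_zero]
        refine ((integral_pos_iff_support_of_nonneg (fun p => mul_self_nonneg _)
          hbb.integrable).2 ?_).ne'
        refine (hbb.continuous.isOpen_support).measure_pos volume ⟨1 / 2, ?_⟩
        have hone : b (1 / 2) = 1 := b.one_of_mem_closedBall (Metric.mem_closedBall_self b.rIn_pos.le)
        simp only [Function.mem_support, hone]
        norm_num
      refine ((integral_pos_iff_support_of_nonneg (fun s => Complex.normSq_nonneg _) hi).2 ?_).ne'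
      exact ((Complex.continuous_normSq.comp hbb.continuous_fourierT).isOpen_support).measure_pos
        volume ⟨0, by simpa using hb0⟩
    -- test against a dense set of vectors
    set v := (a * x - x * a) Ω with hv
    suffices h : ∀ y ∈ M.commutant, ⟪y Ω, v⟫_ℂ = 0 by
      have h1 : D.J v = 0 := Modular.ext_omega hΩ fun z hz => by
        have := h _ (Modular.conjOp_mem D hz)
        rw [Modular.conjOp_omega] at this
        rw [← D.J_inner, D.J_invol, ← inner_conj_symm, this, map_zero]
      rw [← D.J_invol v, h1, Fixed.J_zero]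
    intro y hy
    have hk0 : kfun D (y Ω) a x 0 = ⟪y Ω, v⟫_ℂ := by
      simp only [kfun, sig, neg_zero, D.U_zero, one_mul, mul_one, hv, sub_apply, mul_apply_eq_comp,
        inner_sub_right]
      congr 1
      conv_rhs => rw [← has]
      rw [inner_star]
    rw [← hk0]
    -- scaling
    have hscale : ∀ m : ℕ, ∫ s : ℝ, w s * kfun D (y Ω) a x (s / 2 ^ m) = 0 := by
      intro m
      set P : ℝ := 2 ^ m with hP
      have hP0 : 0 < P := by positivity
      set χ : ℝ → ℝ := fun p => b (P⁻¹ * p) with hχ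
      have hχt : Test χ := ⟨b.contDiff.comp (contDiff_const.mul contDiff_id),
        b.hasCompactSupport.comp_homeomorph (Homeomorph.mulLeft₀ P⁻¹ (inv_ne_zero hP0.ne'))⟩
      have hχs : ∀ p, χ p ≠ 0 → p ∈ Set.Ioo 0 P := by
        intro p hp
        have hm : P⁻¹ * p ∈ Function.support b := hp
        rw [b.support_eq, Real.ball_eq_Ioo] at hm
        obtain ⟨h1, h2⟩ := hm
        simp only [b] at h1 h2
        constructor
        · by_contra hle
          have : P⁻¹ * p ≤ 0 := mul_nonpos_of_nonneg_of_nonpos (by positivity) (not_lt.1 hle)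
          linarith
        · have h3 : P * (P⁻¹ * p) = p := by rw [← mul_assoc, mul_inv_cancel₀ hP0.ne', one_mul]
          nlinarith
      have S : Gen M x P χ := ⟨hx, hxs, hP0, hχt.continuous, fun p => by
        rw [abs_of_nonneg b.nonneg]; exact b.le_one⟩
      have h := integral_eq_zero D hΩ ha has han htr S hχt hχs hy
      have e : ∀ t, fourierT (fun p => χ p * χ p) t = (P : ℂ) * G₁ (P * t) := by
        intro t
        rw [hG₁, show (fun p => χ p * χ p) = fun E => (fun p => b p * b p) (P⁻¹ * E) from rfl,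
          fourierT_comp_mul (fun p => b p * b p) (inv_pos.2 hP0), Complex.ofReal_inv, inv_inv,
          div_inv_eq_mul, mul_comm t]
      simp only [e, map_mul, Complex.conj_ofReal] at h
      have h2 := Measure.integral_comp_mul_left (fun s => w s * kfun D (y Ω) a x (s / P)) P
      have h3 : ∫ t : ℝ, w (P * t) * kfun D (y Ω) a x (P * t / P) = 0 := by
        have hPC : ((P : ℂ) * (P : ℂ)) ≠ 0 := by simp [hP0.ne']
        refine mul_left_cancel₀ hPC ?_
        rw [← integral_const_mul, mul_zero, ← h]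
        refine integral_congr_ae (Eventually.of_forall fun t => ?_)
        simp only [hw, mul_div_cancel_left₀ t hP0.ne']
        ring
      rw [h3, eq_comm, smul_eq_zero] at h2
      exact h2.resolve_left (by simp [hP0.ne'])
    have hlim : Tendsto (fun m : ℕ => ∫ s : ℝ, w s * kfun D (y Ω) a x (s / 2 ^ m)) atTop
        (𝓝 (∫ s : ℝ, w s * kfun D (y Ω) a x 0)) := by
      apply tendsto_integral_filter_of_dominated_convergence
        (fun s => ‖w s‖ * (‖a (y Ω)‖ * (‖x‖ * ‖Ω‖) + ‖y Ω‖ * (‖x‖ * ‖a Ω‖)))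
      · exact Eventually.of_forall fun m => (hwc.mul ((continuous_kfun _).comp
          (continuous_id.div_const _))).aestronglyMeasurable
      · refine Eventually.of_forall fun m => Eventually.of_forall fun s => ?_
        rw [norm_mul]
        exact mul_le_mul_of_nonneg_left (norm_kfun_le _ _) (norm_nonneg _)
      · exact hwi.norm.mul_const _
      · filter_upwards with s
        exact (((continuous_kfun _).tendsto 0).comp (tendsto_const_nhds.div_atTop
          (tendsto_pow_atTop_atTop_of_one_lt one_lt_two))).const_mul _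
    simp only [hscale] at hlim
    have h := tendsto_nhds_unique hlim tendsto_const_nhds
    rw [integral_mul_const, mul_eq_zero] at h
    exact h.resolve_left hne
  intro x hx
  have hsa : ∀ z ∈ M, star z = z → a * z = z * a := fun z hz hzs =>
    sub_eq_zero.1 (hΩ.separating _ (sub_mem (mul_mem ha hz) (mul_mem hz ha)) (key z hz hzs))
  have e1 := hsa (x + star x) (add_mem hx (star_mem hx)) (by rw [star_add, star_star, add_comm])
  have e2 := hsa (Complex.I • (star x - x))
    (M.toStarSubalgebra.smul_mem (sub_mem (star_mem hx) hx) _)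
    (by simp [star_smul, smul_sub]; abel)
  rw [mul_smul_comm, smul_mul_assoc] at e2
  have e3 := smul_right_injective _ Complex.I_ne_zero e2
  simp only [mul_sub, sub_mul, mul_add, add_mul] at e1 e3
  refine smul_right_injective _ (two_ne_zero (α := ℂ)) ?_
  simp only [two_smul]
  calc a * x + a * x = (a * x + a * star x) - (a * star x - a * x) := by abel
    _ = (x * a + star x * a) - (star x * a - x * a) := by rw [e1, e3]
    _ = _ := by abel

end Vale.Agent.P096.III.Bic
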