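import Vale.Agent.P132.Tomita.Std
import Vale.Agent.P095.NoChar
import Vale.Agent.P078.General.Ops

/-!
# P096 III: strong limits in an algebra with a cyclic separating vector
-/

namespace Vale.Agent.P096.III.Bic

open scoped InnerProductSpace Topology
open Filter
open Vale.Agent.P132 (IsCS)

universe u

variable {H : Type u} [NormedAddCommGroup H] [InnerProductSpace ℂ H] [CompleteSpace H]
  {A : VonNeumannAlgebra H} {Ω : H}

theorem commute_apply {a b : H →L[ℂ] H} (h : Commute a b) (v : H) : a (b v) = b (a v) :=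
  congrArg (fun f : H →L[ℂ] H => f v) h.eq

theorem commute_of_mem {a b : H →L[ℂ] H} (ha : a ∈ A) (hb : b ∈ A.commutant) : Commute a b :=
  VonNeumannAlgebra.mem_commutant_iff.1 hb a ha

theorem norm_apply_unitary {u : H →L[ℂ] H} (hu : u ∈ unitary (H →L[ℂ] H)) (v : H) : ‖u v‖ = ‖v‖ :=
  (ContinuousLinearMap.norm_map_iff_adjoint_comp_self _).2 hu.1 v

/-- A bounded sequence of the algebra that converges on a vector cyclic for the commutant converges
strongly inside the algebra. -/
theorem exists_strong_limit (hcyc : ∀ v : H, ∀ η : ℝ, 0 < η → ∃ b ∈ A.commutant, ‖b Ω - v‖ ≤ η)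
    {z : ℕ → H →L[ℂ] H} (hz : ∀ n, z n ∈ A) {C : ℝ} (hC : ∀ n, ‖z n‖ ≤ C)
    (hc : CauchySeq fun n => z n Ω) :
    ∃ a ∈ A, ‖a‖ ≤ C ∧ (∀ v, Tendsto (fun n => z n v) atTop (𝓝 (a v))) ∧
      ((∀ n, star (z n) = z n) → star a = a) := by
  have hC0 : 0 ≤ C := (norm_nonneg _).trans (hC 0)
  have hcv : ∀ v, CauchySeq fun n => z n v := by
    intro v
    rw [Metric.cauchySeq_iff']
    intro e he
    obtain ⟨b, hb, hbv⟩ := hcyc v (e / (4 * (C + 1))) (by positivity)
    obtain ⟨N, hN⟩ := Metric.cauchySeq_iff'.1 hc (e / (2 * (‖b‖ + 1))) (by positivity)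
    refine ⟨N, fun n hn => ?_⟩
    have h1 := hN n hn
    rw [dist_eq_norm] at h1 ⊢
    have hd : ∀ k, ‖z k (v - b Ω)‖ ≤ C * (e / (4 * (C + 1))) := fun k =>
      ((z k).le_opNorm _).trans (mul_le_mul (hC k) ((norm_sub_rev _ _).trans_le hbv)
        (norm_nonneg _) hC0)
    have e1 : z n v - z N v = (z n (v - b Ω) - z N (v - b Ω)) + b (z n Ω - z N Ω) := by
      simp only [map_sub]
      rw [commute_apply (commute_of_mem (hz n) hb), commute_apply (commute_of_mem (hz N) hb)]
      abel
    rw [e1]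
    have h2 : ‖b (z n Ω - z N Ω)‖ ≤ ‖b‖ * (e / (2 * (‖b‖ + 1))) :=
      (b.le_opNorm _).trans (mul_le_mul_of_nonneg_left h1.le (norm_nonneg _))
    have h3 : C * (e / (4 * (C + 1))) < e / 4 := by
      rw [mul_div_assoc', div_lt_div_iff₀ (by positivity) (by norm_num)]; nlinarith
    have h4 : ‖b‖ * (e / (2 * (‖b‖ + 1))) ≤ e / 2 := by
      rw [mul_div_assoc', div_le_div_iff₀ (by positivity) (by norm_num)]
      nlinarith [norm_nonneg b]
    linarith [norm_add_le (z n (v - b Ω) - z N (v - b Ω)) (b (z n Ω - z N Ω)),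
      norm_sub_le (z n (v - b Ω)) (z N (v - b Ω)), hd n, hd N]
  choose a ha using fun v => cauchySeq_tendsto_of_complete (hcv v)
  let L : H →ₗ[ℂ] H :=
    { toFun := a
      map_add' := fun v w => tendsto_nhds_unique (ha (v + w))
        (((ha v).add (ha w)).congr fun n => (map_add (z n) v w).symm)
      map_smul' := fun c v => tendsto_nhds_unique (ha (c • v))
        (((ha v).const_smul c).congr fun n => (map_smul (z n) c v).symm) }
  have hb : ∀ v, ‖L v‖ ≤ C * ‖v‖ := fun v => le_of_tendsto (ha v).norm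
    (Eventually.of_forall fun n => ((z n).le_opNorm v).trans
      (mul_le_mul_of_nonneg_right (hC n) (norm_nonneg _)))
  refine ⟨L.mkContinuous C hb, ?_, LinearMap.mkContinuous_norm_le _ hC0 _, fun v => ha v,
    fun hs => ?_⟩
  · rw [← VonNeumannAlgebra.commutant_commutant A, VonNeumannAlgebra.mem_commutant_iff]
    intro b hb'
    refine ContinuousLinearMap.ext fun v => ?_
    show b (a v) = a (b v)
    refine tendsto_nhds_unique ((b.continuous.tendsto _).comp (ha v)) ((ha (b v)).congr fun n => ?_)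
    exact commute_apply (commute_of_mem (hz n) hb') v
  · refine (((ContinuousLinearMap.eq_adjoint_iff _ _).2 fun v w => ?_).trans
      (ContinuousLinearMap.star_eq_adjoint _).symm).symm
    refine tendsto_nhds_unique ((ha v).inner tendsto_const_nhds) ?_
    refine ((tendsto_const_nhds (x := v)).inner (𝕜 := ℂ) (ha w)).congr fun n => ?_
    conv_rhs => rw [← hs n, ContinuousLinearMap.star_eq_adjoint,
      ContinuousLinearMap.adjoint_inner_left]

/-- A separating vector stays uniformly away from the contractions with a given matrix coefficient. -/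
theorem exists_margin {ξ : H} (hsep : ∀ y ∈ A, y ξ = 0 → y = 0) (p : H) {θ : ℝ} (hθ : 0 < θ) :
    ∃ c : ℝ, 0 < c ∧ ∀ q ∈ A, ‖q‖ ≤ 1 → θ ≤ ‖⟪p, q p⟫_ℂ‖ → c ≤ ‖q ξ‖ := by
  by_contra h
  push Not at h
  choose q hqA hq1 hqp hqξ using fun n : ℕ => h (1 / ((n : ℝ) + 1)) (by positivity)
  obtain ⟨T, hT⟩ := Vale.Agent.P095.NoChar.exists_wlim q 1 hq1
  have hTA : T ∈ A := by
    rw [← VonNeumannAlgebra.commutant_commutant A, VonNeumannAlgebra.mem_commutant_iff]
    intro b hb
    refine ContinuousLinearMap.ext fun v => ext_inner_left ℂ fun w => ?_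
    show ⟪w, b (T v)⟫_ℂ = ⟪w, T (b v)⟫_ℂ
    rw [← ContinuousLinearMap.adjoint_inner_left]
    refine tendsto_nhds_unique (hT _ v) ((hT w (b v)).congr fun n => ?_)
    rw [ContinuousLinearMap.adjoint_inner_left]
    exact congrArg _ (commute_apply (commute_of_mem (hqA n) hb) v)
  have hTξ : T ξ = 0 := by
    refine ext_inner_left ℂ fun w => ?_
    rw [inner_zero_right]
    refine tendsto_nhds_unique (hT w ξ) (squeeze_zero_norm (fun n => ?_)
      ((by simpa using (tendsto_one_div_add_atTop_nhds_zero_nat (𝕜 := ℝ)).const_mul ‖w‖ :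
        Tendsto (fun n : ℕ => ‖w‖ * (1 / ((n : ℝ) + 1))) atTop (𝓝 0)).mono_left
          Nat.hyperfilter_le_atTop))
    exact (norm_inner_le_norm _ _).trans (mul_le_mul_of_nonneg_left (hqξ n).le (norm_nonneg _))
  have h0 := hT p p
  rw [hsep T hTA hTξ, zero_apply, inner_zero_right] at h0
  have : θ ≤ ‖(0 : ℂ)‖ := ge_of_tendsto h0.norm (Eventually.of_forall hqp)
  rw [norm_zero] at this
  linarith

end Vale.Agent.P096.III.Bic
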