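import Vale.Agent.P096.III.Tensor.Vac

/-!
# P096 III: truncation to finitely many sites

An element of `tens G M` is a strong limit of elements of the algebra that commute with all far
sites and are no larger in norm.
-/

namespace Vale.Agent.P096.III.Bic

open scoped InnerProductSpace Topology
open Filter
open Vale.Agent.P082 (Alg)
open Vale.Agent.P096.III.Tensor

universe u

variable {κ : ℕ → Type} [∀ n, Fintype (κ n)] [∀ n, DecidableEq (κ n)] [∀ n, Zero (κ n)]
variable {H : Type u} [NormedAddCommGroup H] [InnerProductSpace ℂ H] [CompleteSpace H]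
variable {G : ∀ n, Finset (Matrix (κ n) (κ n) ℂ)} {M : VonNeumannAlgebra H}

/-- The labels that are the reference from `N` on. -/
def Low (N : ℕ) (i : Lbl κ) : Prop := ∀ n, N ≤ n → i n = 0

omit [∀ n, Fintype (κ n)] [∀ n, DecidableEq (κ n)] in
theorem low_mono {N N' : ℕ} (h : N ≤ N') {i : Lbl κ} (hi : Low N i) : Low N' i :=
  fun n hn => hi n (h.trans hn)

omit [∀ n, DecidableEq (κ n)] in
theorem finite_low (N : ℕ) : {i : Lbl κ | Low N i}.Finite := by
  refine Set.finite_coe_iff.1 (Finite.of_injective
    (fun (i : {i : Lbl κ | Low N i}) (n : Fin N) => (i.1 n : κ n)) fun i j h => Subtype.ext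
      (DFinsupp.ext fun n => ?_))
  by_cases hn : n < N
  · exact congrFun h ⟨n, hn⟩
  · rw [i.2 n (not_lt.1 hn), j.2 n (not_lt.1 hn)]

/-- `i` below `N`, `k` from `N` on. -/
noncomputable def puts : ℕ → Lbl κ → Lbl κ → Lbl κ
  | 0, _, k => k
  | N + 1, i, k => put (puts N i k) N (i N)

omit [∀ n, Fintype (κ n)] [∀ n, DecidableEq (κ n)] in
theorem puts_apply (N : ℕ) (i k : Lbl κ) (n : ℕ) :
    puts N i k n = if n < N then i n else k n := by
  induction N with
  | zero => simp [puts]
  | succ N ih =>
    rw [puts]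
    rcases eq_or_ne n N with rfl | hne
    · rw [put_apply_same, if_pos (Nat.lt_succ_self n)]
    · rw [put_apply_ne _ hne, ih]
      by_cases h : n < N
      · rw [if_pos h, if_pos (Nat.lt_succ_of_lt h)]
      · rw [if_neg h, if_neg (by omega)]

variable (H) in
/-- The unit `(i, j)` on the sites below `N`. -/
noncomputable def uop : ℕ → Lbl κ → Lbl κ → (Big κ H →L[ℂ] Big κ H)
  | 0, _, _ => 1
  | N + 1, i, j => site H N (Matrix.single (i N) (j N) 1) * uop N i j

theorem uop_single (N : ℕ) (i j k : Lbl κ) (h : H) :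
    uop H N i j (lp.single 2 k h) =
      if ∀ n, n < N → k n = j n then lp.single 2 (puts N i k) h else 0 := by
  classical
  induction N with
  | zero => simp [uop, puts]
  | succ N ih =>
    rw [uop, mul_apply_eq_comp, ih]
    by_cases hk : ∀ n, n < N → k n = j n
    · rw [if_pos hk, site_single, puts_apply, if_neg (lt_irrefl N)]
      by_cases hN : k N = j N
      · have hk' : ∀ n, n < N + 1 → k n = j n := fun n hn =>
          (Nat.lt_succ_iff_lt_or_eq.1 hn).elim (hk n) fun e => by subst e; exact hN
        rw [if_pos hk', Finset.sum_eq_single (i N) (fun a _ ha => ?_) (by simp), hN,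
          Matrix.single_apply_same, one_smul]
        · rfl
        · rw [Matrix.single_apply_of_row_ne (Ne.symm ha), zero_smul]
      · rw [if_neg fun h' => hN (h' N N.lt_succ_self)]
        refine Finset.sum_eq_zero fun a _ => ?_
        rw [Matrix.single_apply_of_col_ne _ _ (Ne.symm hN), zero_smul]
    · rw [if_neg hk, map_zero, if_neg fun h' => hk fun n hn => h' n (Nat.lt_succ_of_lt hn)]

theorem away_uop (N : ℕ) (i j : Lbl κ) : Away N (uop H N i j) := by
  induction N with
  | zero => exact fun n _ A => Commute.one_right _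
  | succ N ih =>
    exact fun n hn A =>
      (commute_site (by omega) A _).mul_right (ih n (by omega) A)

theorem commute_amp_uop (y : H →L[ℂ] H) (N : ℕ) (i j : Lbl κ) :
    Commute (amp κ H y) (uop H N i j) := by
  induction N with
  | zero => exact Commute.one_right _
  | succ N ih => exact (commute_amp_site y N _).mul_right ih

omit [∀ n, Fintype (κ n)] [CompleteSpace H] in
/-- Operators are determined by the coordinate vectors. -/
theorem op_ext {A B : Big κ H →L[ℂ] Big κ H}
    (h : ∀ k v, A (lp.single 2 k v) = B (lp.single 2 k v)) : A = B :=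
  ContinuousLinearMap.ext fun v =>
    ((lp.hasSum_single (p := 2) (by norm_num) v).mapL A).unique
      (by simpa only [← h] using (lp.hasSum_single (p := 2) (by norm_num) v).mapL B)

omit [∀ n, Fintype (κ n)] [∀ n, DecidableEq (κ n)] [CompleteSpace H] in
theorem exists_plo (N : ℕ) : ∃ T : Big κ H →L[ℂ] Big κ H,
    (∀ v i, (Low N i → T v i = v i) ∧ (¬ Low N i → T v i = 0)) ∧ ‖T‖ ≤ 1 := by
  classical
  have key : ∀ v : Big κ H, ∀ i, ‖(if Low N i then v i else 0 : H)‖ ^ 2 ≤ ‖v i‖ ^ 2 := fun v i => by
    split_ifs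
    · exact le_rfl
    · simp
  have hs : ∀ v : Big κ H, Summable fun i => ‖(if Low N i then v i else 0 : H)‖ ^ 2 := fun v =>
    .of_nonneg_of_le (fun _ => sq_nonneg _) (key v) (summable_big v)
  refine ⟨LinearMap.mkContinuous
    { toFun := fun v => ⟨fun i => if Low N i then v i else 0, memℓp_big (hs v)⟩
      map_add' := fun v w => lp.ext (funext fun i => by
        show (if Low N i then (v + w) i else 0) = (if Low N i then v i else 0) +
          (if Low N i then w i else 0)
        split_ifs <;> simp)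
      map_smul' := fun c v => lp.ext (funext fun i => by
        show (if Low N i then (c • v) i else 0) = c • (if Low N i then v i else 0)
        split_ifs <;> simp) } 1 fun v => ?_,
    fun v i => ⟨fun hi => ?_, fun hi => ?_⟩, LinearMap.mkContinuous_norm_le _ zero_le_one _⟩
  · rw [one_mul]
    refine (pow_le_pow_iff_left₀ (norm_nonneg _) (norm_nonneg _) two_ne_zero).1 ?_
    rw [norm_sq_big, norm_sq_big]
    exact (hs v).tsum_le_tsum (key v) (summable_big v)
  · show (if Low N i then v i else 0) = v i
    rw [if_pos hi]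
  · show (if Low N i then v i else 0) = 0
    rw [if_neg hi]

variable (H) in
/-- The projection on the labels that are low. -/
noncomputable def plo (N : ℕ) : Big κ H →L[ℂ] Big κ H := (exists_plo (κ := κ) N).choose

omit [∀ n, Fintype (κ n)] [∀ n, DecidableEq (κ n)] [CompleteSpace H] in
theorem plo_of_low {N : ℕ} {i : Lbl κ} (hi : Low N i) (v : Big κ H) : plo H N v i = v i :=
  ((exists_plo (H := H) N).choose_spec.1 v i).1 hi

omit [∀ n, Fintype (κ n)] [∀ n, DecidableEq (κ n)] [CompleteSpace H] in
theorem plo_of_not_low {N : ℕ} {i : Lbl κ} (hi : ¬ Low N i) (v : Big κ H) : plo H N v i = 0 :=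
  ((exists_plo (H := H) N).choose_spec.1 v i).2 hi

omit [∀ n, Fintype (κ n)] [∀ n, DecidableEq (κ n)] [CompleteSpace H] in
theorem norm_plo_le (N : ℕ) : ‖plo (κ := κ) H N‖ ≤ 1 := (exists_plo (H := H) N).choose_spec.2

omit [∀ n, Fintype (κ n)] [CompleteSpace H] in
theorem plo_single {N : ℕ} {k : Lbl κ} (hk : Low N k) (h : H) :
    plo H N (lp.single 2 k h) = lp.single 2 k h := by
  refine lp.ext (funext fun i => ?_)
  by_cases hi : Low N i
  · rw [plo_of_low hi]
  · rw [plo_of_not_low hi, single_of_ne _ fun e => hi (by rw [e]; exact hk)]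

omit [∀ n, Fintype (κ n)] [CompleteSpace H] in
theorem plo_single_zero {N : ℕ} {k : Lbl κ} (hk : ¬ Low N k) (h : H) :
    plo H N (lp.single 2 k h) = 0 := by
  refine lp.ext (funext fun i => ?_)
  by_cases hi : Low N i
  · rw [plo_of_low hi, single_of_ne _ fun e => hk (by rw [← e]; exact hi)]; rfl
  · rw [plo_of_not_low hi]; rfl

omit [∀ n, Fintype (κ n)] [∀ n, DecidableEq (κ n)] in
theorem star_plo (N : ℕ) : star (plo (κ := κ) H N) = plo H N := by
  refine ((ContinuousLinearMap.eq_adjoint_iff _ _).2 fun v w => ?_).symm.trans rfl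
  rw [lp.inner_eq_tsum, lp.inner_eq_tsum]
  refine tsum_congr fun i => ?_
  by_cases hi : Low N i
  · rw [plo_of_low hi, plo_of_low hi]
  · rw [plo_of_not_low hi, plo_of_not_low hi, inner_zero_left, inner_zero_right]

/-- The operators that commute with the projection and with all sites from `N` on. -/
noncomputable def trunc (κ : ℕ → Type) [∀ n, Fintype (κ n)] [∀ n, DecidableEq (κ n)]
    [∀ n, Zero (κ n)] (H : Type u) [NormedAddCommGroup H] [InnerProductSpace ℂ H] [CompleteSpace H]
    (N : ℕ) : VonNeumannAlgebra (Big κ H) where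
  toStarSubalgebra := StarSubalgebra.centralizer ℂ
    ({plo H N} ∪ ⋃ n ∈ Set.Ici N, Set.range (site H n))
  centralizer_centralizer' := by simp

theorem mem_trunc {N : ℕ} {T : Big κ H →L[ℂ] Big κ H} :
    T ∈ trunc κ H N ↔ Commute (plo H N) T ∧ Away N T := by
  refine (StarSubalgebra.mem_centralizer_iff ℂ).trans ⟨fun h => ⟨(h _ (Or.inl rfl)).1, fun n hn A =>
    (h _ (Or.inr (Set.mem_biUnion (Set.mem_Ici.2 hn) ⟨A, rfl⟩))).1⟩, ?_⟩
  rintro ⟨h1, h2⟩ g (hg | hg)
  · rw [Set.mem_singleton_iff.1 hg, star_plo]
    exact ⟨h1, h1⟩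
  · simp only [Set.mem_iUnion, Set.mem_Ici, Set.mem_range] at hg
    obtain ⟨n, hn, A, rfl⟩ := hg
    exact ⟨h2 n hn A, by rw [← map_star]; exact h2 n hn _⟩

/-- Truncated operators are determined by their low corner. -/
theorem eq_of_mul_plo {N : ℕ} {S T : Big κ H →L[ℂ] Big κ H} (hS : Away N S) (hT : Away N T)
    (h : S * plo H N = T * plo H N) : S = T := by
  classical
  refine op_ext fun k v => ?_
  suffices key : ∀ (s : Finset ℕ) (k : Lbl κ), (∀ n, N ≤ n → n ∉ s → k n = 0) →
      S (lp.single 2 k v) = T (lp.single 2 k v) from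
    key k.support k fun n _ hn => DFinsupp.notMem_support_iff.1 hn
  intro s
  induction s using Finset.induction_on with
  | empty =>
    intro k hk
    have hl : Low N k := fun n hn => hk n hn (by simp)
    have := congrArg (fun f : Big κ H →L[ℂ] Big κ H => f (lp.single 2 k v)) h
    simpa only [mul_apply_eq_comp, plo_single hl] using this
  | insert n s _ ih =>
    intro k hk
    by_cases hn : N ≤ n
    · have e : site H n (Matrix.single (k n) 0 1) (lp.single 2 (put k n 0) v) =
          (lp.single 2 k v : Big κ H) := by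
        rw [site_single, put_apply_same, Finset.sum_eq_single (k n) (fun a _ ha => ?_) (by simp),
          Matrix.single_apply_same, one_smul, put_put, put_self]
        rw [Matrix.single_apply_of_row_ne (Ne.symm ha), zero_smul]
      have h1 := congrArg (fun f : Big κ H →L[ℂ] Big κ H => f (lp.single 2 (put k n 0) v))
        (hS n hn (Matrix.single (k n) 0 1)).eq
      have h2 := congrArg (fun f : Big κ H →L[ℂ] Big κ H => f (lp.single 2 (put k n 0) v))
        (hT n hn (Matrix.single (k n) 0 1)).eq
      simp only [mul_apply_eq_comp, e] at h1 h2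
      rw [← h1, ← h2, ih (put k n 0) fun m hm hms => ?_]
      rcases eq_or_ne m n with rfl | hne
      · exact put_apply_same k m 0
      · rw [put_apply_ne k hne]; exact hk m hm (by simp [hne, hms])
    · exact ih k fun m hm hms => hk m hm (by simp only [Finset.mem_insert, not_or]; exact ⟨by omega, hms⟩)

/-- The truncation. -/
theorem exists_trunc (y : Big κ H →L[ℂ] Big κ H) (N : ℕ) :
    ∃ E ∈ trunc κ H N, E * plo H N = plo H N * y * plo H N ∧
      ∀ z : H →L[ℂ] H, (∀ i j, Commute z (blk i j y)) → Commute (amp κ H z) E := by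
  classical
  set Lo := (finite_low (κ := κ) N).toFinset with hLo
  have hmem : ∀ i, i ∈ Lo ↔ Low N i := fun i => Set.Finite.mem_toFinset _
  set E := ∑ i ∈ Lo, ∑ j ∈ Lo, amp κ H (blk i j y) * uop H N i j with hE
  refine ⟨E, mem_trunc.2 ⟨?_, ?_⟩, ?_, ?_⟩
  · refine op_ext fun k h => ?_
    simp only [mul_apply_eq_comp, hE, sum_apply, uop_single, map_sum]
    by_cases hk : Low N k
    · rw [plo_single hk]
      simp only [uop_single]
      refine Finset.sum_congr rfl fun i hi => Finset.sum_congr rfl fun j _ => ?_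
      split_ifs
      · rw [amp_single, plo_single]
        intro n hn
        rw [puts_apply, if_neg (not_lt.2 hn), hk n hn]
      · simp
    · rw [plo_single_zero hk]
      simp only [map_zero, Finset.sum_const_zero]
      refine Finset.sum_eq_zero fun i hi => Finset.sum_eq_zero fun j _ => ?_
      split_ifs
      · rw [amp_single, plo_single_zero]
        intro hl
        exact hk fun n hn => by
          have := hl n hn
          rwa [puts_apply, if_neg (not_lt.2 hn)] at this
      · simp
  · exact fun n hn A => Commute.sum_right _ _ _ fun i _ => Commute.sum_right _ _ _ fun j _ =>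
      (commute_amp_site _ n A).symm.mul_right (away_uop N i j n hn A)
  · refine op_ext fun k h => ?_
    simp only [mul_apply_eq_comp]
    by_cases hk : Low N k
    · rw [plo_single hk, hE]
      simp only [sum_apply, mul_apply_eq_comp, uop_single]
      have hone : ∀ i ∈ Lo, ∑ j ∈ Lo,
          amp κ H (blk i j y) (if ∀ n, n < N → k n = j n then lp.single 2 (puts N i k) h else 0) =
          lp.single 2 i (blk i k y h) := by
        intro i hi
        rw [Finset.sum_eq_single k (fun j hj hne => ?_) (fun h' => absurd ((hmem k).2 hk) h')]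
        · rw [if_pos (fun _ _ => rfl), amp_single]
          congr 1
          refine DFinsupp.ext fun n => ?_
          rw [puts_apply]
          split_ifs with hn
          · rfl
          · rw [hk n (not_lt.1 hn), (hmem i).1 hi n (not_lt.1 hn)]
        · rw [if_neg, map_zero]
          intro h'
          refine hne (DFinsupp.ext fun n => ?_)
          by_cases hn : n < N
          · exact (h' n hn).symm
          · rw [hk n (not_lt.1 hn), (hmem j).1 hj n (not_lt.1 hn)]
      rw [Finset.sum_congr rfl hone]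
      refine lp.ext (funext fun l => ?_)
      rw [lp.coeFn_sum, Finset.sum_apply]
      by_cases hl : Low N l
      · rw [plo_of_low hl, Finset.sum_eq_single l (fun i _ hne => single_of_ne _ (Ne.symm hne))
          (fun h' => absurd ((hmem l).2 hl) h'), lp.single_apply_self, blk_apply]
      · rw [plo_of_not_low hl]
        refine Finset.sum_eq_zero fun i hi => single_of_ne _ fun e => hl ?_
        rw [e]; exact (hmem i).1 hi
    · rw [plo_single_zero hk, map_zero, map_zero, map_zero]
  · intro z hz
    exact Commute.sum_right _ _ _ fun i _ => Commute.sum_right _ _ _ fun j _ =>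
      ((hz i j).map (amp κ H)).mul_right (commute_amp_uop z N i j)

theorem norm_trunc_le {N : ℕ} {E y : Big κ H →L[ℂ] Big κ H} (hE : E ∈ trunc κ H N)
    (h : E * plo H N = plo H N * y * plo H N) : ‖E‖ ≤ ‖y‖ := by
  let σ : Alg (trunc κ H N) →⋆ₙₐ[ℂ] (Big κ H →L[ℂ] Big κ H) :=
    { toFun := fun x => (x : Big κ H →L[ℂ] Big κ H) * plo H N
      map_smul' := fun c x => smul_mul_assoc c _ _
      map_zero' := zero_mul _
      map_add' := fun x z => add_mul _ _ _
      map_mul' := fun x z => by
        have hz := (mem_trunc.1 z.2).1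
        have hP : plo (κ := κ) H N * plo H N = plo H N := op_ext fun k v => by
          rw [mul_apply_eq_comp]
          by_cases hk : Low N k
          · rw [plo_single hk, plo_single hk]
          · rw [plo_single_zero hk, map_zero]
        show (x : Big κ H →L[ℂ] Big κ H) * (z : Big κ H →L[ℂ] Big κ H) * plo H N =
          (x : Big κ H →L[ℂ] Big κ H) * plo H N * ((z : Big κ H →L[ℂ] Big κ H) * plo H N)
        calc (x : Big κ H →L[ℂ] Big κ H) * (z : Big κ H →L[ℂ] Big κ H) * plo H N
            = (x : Big κ H →L[ℂ] Big κ H) * (z : Big κ H →L[ℂ] Big κ H) * (plo H N * plo H N) := by rw [hP]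
          _ = (x : Big κ H →L[ℂ] Big κ H) * ((z : Big κ H →L[ℂ] Big κ H) * plo H N) * plo H N := by
              simp only [mul_assoc]
          _ = (x : Big κ H →L[ℂ] Big κ H) * (plo H N * (z : Big κ H →L[ℂ] Big κ H)) * plo H N := by
              rw [hz.eq]
          _ = _ := by simp only [mul_assoc]
      map_star' := fun (x : Alg (trunc κ H N)) => by
        show star (x : Big κ H →L[ℂ] Big κ H) * plo H N = star ((x : Big κ H →L[ℂ] Big κ H) * plo H N)
        rw [star_mul, star_plo]
        exact ((mem_trunc.1 (star x).2).1).eq.symm }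
  have hinj : Function.Injective σ := fun x z hxz =>
    Subtype.ext (eq_of_mul_plo (mem_trunc.1 x.2).2 (mem_trunc.1 z.2).2 hxz)
  have h1 := NonUnitalStarAlgHom.norm_map σ hinj ⟨E, hE⟩
  have h1' : ‖E * plo H N‖ = ‖E‖ := h1
  calc ‖E‖ = ‖E * plo H N‖ := h1'.symm
    _ = ‖plo H N * y * plo H N‖ := by rw [h]
    _ ≤ ‖plo (κ := κ) H N‖ * ‖y‖ * ‖plo (κ := κ) H N‖ := norm_mul₃_le
    _ ≤ 1 * ‖y‖ * 1 := by gcongr <;> exact norm_plo_le N
    _ = ‖y‖ := by ring

omit [∀ n, Fintype (κ n)] [CompleteSpace H] in
theorem tendsto_plo (v : Big κ H) : Tendsto (fun N => plo H N v) atTop (𝓝 v) := by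
  classical
  rw [Metric.tendsto_atTop]
  intro e he
  obtain ⟨s, hs⟩ := ((lp.hasSum_single (p := 2) (by norm_num) v).eventually
    (Metric.ball_mem_nhds v (half_pos he))).exists
  refine ⟨s.sup (fun i => i.support.sup (· + 1)), fun N hN => ?_⟩
  set w := ∑ i ∈ s, (lp.single 2 i (v i) : Big κ H) with hw
  have hwl : plo H N w = w := by
    rw [hw, map_sum]
    refine Finset.sum_congr rfl fun i hi => plo_single (fun n hn => ?_) _
    by_contra hne
    have h1 : n + 1 ≤ i.support.sup (· + 1) :=
      Finset.le_sup (f := (· + 1)) (DFinsupp.mem_support_iff.2 hne)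
    have h2 : i.support.sup (· + 1) ≤ s.sup (fun i => i.support.sup (· + 1)) :=
      Finset.le_sup (f := fun i : Lbl κ => i.support.sup (· + 1)) hi
    omega
  rw [dist_eq_norm] at hs
  rw [dist_eq_norm]
  have e1 : plo H N v - v = plo H N (v - w) + (w - v) := by rw [map_sub, hwl]; abel
  rw [e1]
  have h3 : ‖plo H N (v - w)‖ ≤ ‖v - w‖ :=
    ((plo H N).le_opNorm _).trans (mul_le_of_le_one_left (norm_nonneg _) (norm_plo_le N))
  linarith [norm_add_le (plo H N (v - w)) (w - v), norm_sub_rev v w]

/-- Truncations of an element of the algebra stay in it and converge strongly. -/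
theorem exists_away_approx (hG : IsUGroup G) {y : Big κ H →L[ℂ] Big κ H} (hy : y ∈ tens G M) :
    ∃ E : ℕ → Big κ H →L[ℂ] Big κ H, (∀ N, E N ∈ tens G M ∧ Away N (E N) ∧ ‖E N‖ ≤ ‖y‖) ∧
      (∀ v, Tendsto (fun N => E N v) atTop (𝓝 (y v))) ∧
      (star y = y → ∀ N, star (E N) = E N) := by
  choose E hE hEP hEz using exists_trunc y
  have hn : ∀ N, ‖E N‖ ≤ ‖y‖ := fun N => norm_trunc_le (hE N) (hEP N)
  have hy' := (mem_tens hG).1 hy
  refine ⟨E, fun N => ⟨(mem_tens hG).2 ⟨fun z hz => hEz N z fun i j =>
      (VonNeumannAlgebra.mem_commutant_iff.1 hz _ (blk_mem hG hy i j)).symm, fun n g hg => ?_⟩,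
      (mem_trunc.1 (hE N)).2, hn N⟩, fun v => ?_, fun hs N => ?_⟩
  · -- the groups below `N`
    obtain ⟨hcP, hA⟩ := mem_trunc.1 (hE N)
    by_cases hn' : N ≤ n
    · exact hA n hn' g
    have hgP : Commute (plo H N) (site H n g) := op_ext fun k h => by
      simp only [mul_apply_eq_comp, site_single]
      by_cases hk : Low N k
      · rw [plo_single hk, site_single, map_sum]
        refine Finset.sum_congr rfl fun a _ => ?_
        rw [map_smul, plo_single]
        intro m hm
        rw [put_apply_ne k (by omega), hk m hm]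
      · rw [plo_single_zero hk, map_zero, map_sum]
        refine Finset.sum_eq_zero fun a _ => ?_
        rw [map_smul, plo_single_zero, smul_zero]
        intro hl
        refine hk fun m hm => ?_
        have := hl m hm
        rwa [put_apply_ne k (by omega)] at this
    have hga : Away N (site H n g) := fun m hm A => commute_site (by omega) A g
    refine eq_of_mul_plo (fun m hm A => (hga m hm A).mul_right (hA m hm A))
      (fun m hm A => (hA m hm A).mul_right (hga m hm A)) ?_
    calc site H n g * E N * plo H N = site H n g * (plo H N * y * plo H N) := by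
          rw [mul_assoc, hEP]
      _ = plo H N * (site H n g * y) * plo H N := by
          rw [← mul_assoc, ← mul_assoc, ← hgP.eq, mul_assoc (plo H N)]
      _ = plo H N * (y * site H n g) * plo H N := by rw [(hy'.2 n g hg).eq]
      _ = plo H N * y * plo H N * site H n g := by
          simp only [mul_assoc]; rw [hgP.eq]
      _ = E N * (plo H N * site H n g) := by rw [← hEP, mul_assoc]
      _ = E N * site H n g * plo H N := by rw [hgP.eq, mul_assoc]
  · rw [Metric.tendsto_atTop]
    intro e he
    obtain ⟨M₀, hM₀⟩ := Metric.tendsto_atTop.1 (tendsto_plo v) (e / (4 * (‖y‖ + 1))) (by positivity)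
    set w := plo H M₀ v with hw
    obtain ⟨N₁, hN₁⟩ := Metric.tendsto_atTop.1 (tendsto_plo (y w)) (e / 4) (by linarith)
    refine ⟨max M₀ N₁, fun N hN => ?_⟩
    have hwl : plo H N w = w := by
      refine lp.ext (funext fun i => ?_)
      by_cases hi : Low N i
      · rw [plo_of_low hi]
      · rw [plo_of_not_low hi, hw,
          plo_of_not_low (fun h => hi (low_mono (le_of_max_le_left hN) h))]
    have e1 : E N w = plo H N (y w) := by
      have := congrArg (fun f : Big κ H →L[ℂ] Big κ H => f w) (hEP N)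
      simpa only [mul_apply_eq_comp, hwl] using this
    have h1 := hM₀ M₀ le_rfl
    have h2 := hN₁ N (le_of_max_le_right hN)
    rw [dist_eq_norm] at h1 h2 ⊢
    have e2 : E N v - y v = E N (v - w) + (plo H N (y w) - y w) + y (w - v) := by
      rw [map_sub, map_sub, e1]; abel
    rw [e2]
    have hb : ‖y‖ * (e / (4 * (‖y‖ + 1))) ≤ e / 4 := by
      rw [mul_div_assoc', div_le_div_iff₀ (by positivity) (by norm_num)]
      nlinarith [norm_nonneg y]
    have h3 : ‖E N (v - w)‖ ≤ e / 4 := ((E N).le_opNorm _).trans ((mul_le_mul (hn N)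
      ((norm_sub_rev _ _).trans_le h1.le) (norm_nonneg _) (norm_nonneg _)).trans hb)
    have h4 : ‖y (w - v)‖ ≤ e / 4 := (y.le_opNorm _).trans
      ((mul_le_mul_of_nonneg_left h1.le (norm_nonneg _)).trans hb)
    linarith [norm_add₃_le (a := E N (v - w)) (b := plo H N (y w) - y w) (c := y (w - v))]
  · obtain ⟨hcP, hA⟩ := mem_trunc.1 (hE N)
    have hs' := mem_trunc.1 (star_mem (hE N))
    refine eq_of_mul_plo hs'.2 hA ?_
    calc star (E N) * plo H N = plo H N * star (E N) := hs'.1.eq.symm
      _ = star (E N * plo H N) := by rw [star_mul, star_plo]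
      _ = _ := by rw [hEP, star_mul, star_mul, star_plo, hs, mul_assoc]

/-- Countably many away selfadjoint contractions approximate all selfadjoint contractions. -/
theorem exists_dense_away [TopologicalSpace.SeparableSpace H] (hG : IsUGroup G) :
    ∃ d : ℕ → Big κ H →L[ℂ] Big κ H,
      (∀ k, d k ∈ tens G M ∧ star (d k) = d k ∧ ‖d k‖ ≤ 1 ∧ ∃ N, Away N (d k)) ∧
      ∀ y ∈ tens G M, star y = y → ‖y‖ ≤ 1 → ∀ v, ∀ ε : ℝ, 0 < ε →
        ∀ k₀, ∃ k, k₀ ≤ k ∧ ‖d k v - y v‖ ≤ ε := by
  classical
  -- the big space is separable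
  have hsep : TopologicalSpace.SeparableSpace (Big κ H) := by
    let D : Set (Big κ H) := ⋃ N : ℕ, ⋃ i ∈ {i : Lbl κ | Low N i}, Set.range fun h : H => lp.single 2 i h
    have hD : TopologicalSpace.IsSeparable D := by
      refine .iUnion fun N => ?_
      refine TopologicalSpace.IsSeparable.iUnion fun i => TopologicalSpace.IsSeparable.iUnion fun _ => ?_
      exact TopologicalSpace.isSeparable_range
        (lp.singleContinuousLinearMap ℂ (fun _ : Lbl κ => H) 2 i).continuous
    have hspan : TopologicalSpace.IsSeparable ((Submodule.span ℂ D : Set (Big κ H))) := hD.span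
    refine TopologicalSpace.isSeparable_univ_iff.1 (hspan.closure.mono fun v _ => ?_)
    refine mem_closure_of_tendsto (lp.hasSum_single (p := 2) (by norm_num) v)
      (Eventually.of_forall fun s => Submodule.sum_mem _ fun i _ => Submodule.subset_span ?_)
    refine Set.mem_iUnion.2 ⟨i.support.sup (· + 1), Set.mem_iUnion₂.2 ⟨i, fun n hn => ?_, ⟨v i, rfl⟩⟩⟩
    by_contra hne
    have : n + 1 ≤ i.support.sup (· + 1) :=
      Finset.le_sup (f := (· + 1)) (DFinsupp.mem_support_iff.2 hne)
    omega
  obtain ⟨e, he⟩ := TopologicalSpace.exists_dense_seq (Big κ H)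
  let Sg : Set (Big κ H →L[ℂ] Big κ H) :=
    {a | a ∈ tens G M ∧ star a = a ∧ ‖a‖ ≤ 1 ∧ ∃ N, Away N a}
  let Φ : (Big κ H →L[ℂ] Big κ H) → ℕ → Big κ H := fun a j => a (e j)
  obtain ⟨c, hcS, hcc, hcd⟩ :=
    (TopologicalSpace.IsSeparable.of_separableSpace (Φ '' Sg)).exists_countable_dense_subset
  have h0 : (0 : Big κ H →L[ℂ] Big κ H) ∈ Sg :=
    ⟨zero_mem _, star_zero _, by simp, 0, fun n _ A => Commute.zero_right _⟩
  have hcne : (c ∪ {Φ 0}).Nonempty := ⟨Φ 0, Or.inr rfl⟩
  obtain ⟨f, hf⟩ := (hcc.union (Set.countable_singleton _)).exists_eq_range hcne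
  have hfS : ∀ k, ∃ a ∈ Sg, Φ a = f k := fun k => by
    have : f k ∈ c ∪ {Φ 0} := by rw [hf]; exact ⟨k, rfl⟩
    rcases this with h | h
    · exact hcS h
    · exact ⟨0, h0, (Set.mem_singleton_iff.1 h).symm⟩
  choose a ha haf using hfS
  refine ⟨fun k => a (Nat.unpair k).1, fun k => ha _, fun y hy hys hy1 v ε hε k₀ => ?_⟩
  obtain ⟨E, hE1, hE2, hE3⟩ := exists_away_approx hG hy
  obtain ⟨N, hN⟩ := Metric.tendsto_atTop.1 (hE2 v) (ε / 2) (half_pos hε)
  obtain ⟨j, hj⟩ := he.exists_dist_lt v (show 0 < ε / 8 by positivity)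
  have hES : Φ (E N) ∈ Φ '' Sg :=
    ⟨E N, ⟨(hE1 N).1, hE3 hys N, (hE1 N).2.2.trans hy1, N, (hE1 N).2.1⟩, rfl⟩
  have hopen : IsOpen {g : ℕ → Big κ H | dist (g j) (Φ (E N) j) < ε / 4} :=
    isOpen_lt ((continuous_apply j).dist continuous_const) continuous_const
  obtain ⟨g, hg, hgc⟩ := mem_closure_iff.1 (hcd hES) _ hopen (by
    show dist (Φ (E N) j) _ < ε / 4
    rw [dist_self]; linarith)
  obtain ⟨k, hk⟩ : ∃ k, f k = g := by
    have : g ∈ c ∪ {Φ 0} := Or.inl hgc
    rwa [hf] at this
  refine ⟨Nat.pair k k₀, Nat.right_le_pair k k₀, ?_⟩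
  simp only [Nat.unpair_pair]
  have hgj : ‖a k (e j) - E N (e j)‖ < ε / 4 := by
    have h' : dist (g j) (Φ (E N) j) < ε / 4 := hg
    rw [← hk, ← haf k, dist_eq_norm] at h'
    exact h'
  have hN' := hN N le_rfl
  rw [dist_eq_norm] at hN' hj
  have e1 : a k v - y v = a k (v - e j) + (a k (e j) - E N (e j)) + E N (e j - v) + (E N v - y v) := by
    simp only [map_sub]; abel
  rw [e1]
  have b1 : ‖a k (v - e j)‖ ≤ ε / 8 :=
    (((a k).le_opNorm _).trans (mul_le_of_le_one_left (norm_nonneg _) (ha k).2.2.1)).trans hj.le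
  have b2 : ‖E N (e j - v)‖ ≤ ε / 8 :=
    (((E N).le_opNorm _).trans (mul_le_of_le_one_left (norm_nonneg _) ((hE1 N).2.2.trans hy1))).trans
      ((norm_sub_rev _ _).trans_le hj.le)
  linarith [norm_add_le (a k (v - e j) + (a k (e j) - E N (e j)) + E N (e j - v)) (E N v - y v),
    norm_add₃_le (a := a k (v - e j)) (b := a k (e j) - E N (e j)) (c := E N (e j - v))]

end Vale.Agent.P096.III.Bic
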